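import Crest.Statements.S0013
import Crest.Agent.R12.Final
import Crest.Agent.R12.Bridge13
import Crest.Agent.R12.PNT3

set_option autoImplicit false
open Filter Topology
open Crest Crest.NumberTheoryR

namespace Crest.Agent.S0013

/-- For a prime p let S(p) denote the cubic exponential sum ∑ over x mod p of exp(2πi·x³/p). As X tends to infinity through the natural numbers, the sum of S(p)/(2√p) over the primes p ≤ X with p ≡ 1 (mod 3), divided by X^(5/6)/log X, converges to (2π)^(2/3)/(5·Γ(2/3)). -/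
theorem result :
    Tendsto (fun X : ℕ =>
      (∑ p ∈ (Nat.primesBelow (X + 1)).filter (fun p => p % 3 = 1),
          (∑ x ∈ Finset.range p, Complex.exp (2 * Real.pi * Complex.I * ((x : ℂ) ^ 3 / (p : ℂ)))) /
            (2 * (Real.sqrt (p : ℝ) : ℂ))) /
        (((X : ℝ) ^ ((5 : ℝ) / 6) / Real.log (X : ℝ) : ℝ) : ℂ))
      atTop (𝓝 ((((2 * Real.pi) ^ ((2 : ℝ) / 3) / (5 * Real.Gamma (2 / 3)) : ℝ) : ℂ))) := by
  obtain ⟨C, hC⟩ := R12.bridge13
  set D : ℕ → ℝ := fun X => (X : ℝ) ^ ((5 : ℝ) / 6) / Real.log (X : ℝ) with hD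
  have h1 := (R12.main_O 0).comp tendsto_natCast_atTop_atTop
  have h2 := (Complex.continuous_ofReal.tendsto _).comp (R12.pnt3.const_mul R12.cP)
  -- the error term
  have h3 : Tendsto (fun X : ℕ => |C| * Real.sqrt X / D X) atTop (𝓝 0) := by
    have a : Tendsto (fun x : ℝ => Real.log x / x ^ ((1 : ℝ) / 3)) atTop (𝓝 0) :=
      (isLittleO_log_rpow_atTop (by norm_num : (0 : ℝ) < 1 / 3)).tendsto_div_nhds_zero
    have b := ((a.comp tendsto_natCast_atTop_atTop).const_mul |C|)
    rw [mul_zero] at b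
    refine b.congr' ?_
    filter_upwards [eventually_ge_atTop 2] with X hX
    have hX' : (2 : ℝ) ≤ X := by exact_mod_cast hX
    have hpos : (0 : ℝ) < X := by linarith
    have hl : 0 < Real.log X := Real.log_pos (by linarith)
    have e : (X : ℝ) ^ ((5 : ℝ) / 6) = Real.sqrt X * (X : ℝ) ^ ((1 : ℝ) / 3) := by
      rw [Real.sqrt_eq_rpow, ← Real.rpow_add hpos]; norm_num
    have p1 : 0 < Real.sqrt X := Real.sqrt_pos.2 hpos
    have p2 : 0 < (X : ℝ) ^ ((1 : ℝ) / 3) := Real.rpow_pos_of_pos hpos _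
    simp only [Function.comp, hD, e]
    field_simp
  have h4 : Tendsto (fun X : ℕ =>
      ((∑ p ∈ (Nat.primesBelow (X + 1)).filter (fun p => p % 3 = 1),
          (∑ x ∈ Finset.range p, Complex.exp (2 * Real.pi * Complex.I * ((x : ℂ) ^ 3 / (p : ℂ)))) /
            (2 * (Real.sqrt (p : ℝ) : ℂ))) -
        (1 / 2) * ∑ p ∈ R17.ball (X : ℝ), R12.fP 0 p -
        ((R12.cP * ∑ p ∈ (Nat.primesBelow (X + 1)).filter (fun p => p % 3 = 1),
          (p : ℝ) ^ (-(1 / 6 : ℝ)) : ℝ) : ℂ)) / ((D X : ℝ) : ℂ)) atTop (𝓝 0) := by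
    refine squeeze_zero_norm' ?_ h3
    filter_upwards [eventually_ge_atTop 2] with X hX
    have hX' : (2 : ℝ) ≤ X := by exact_mod_cast hX
    have hDp : 0 < D X :=
      div_pos (Real.rpow_pos_of_pos (by linarith) _) (Real.log_pos (by linarith))
    rw [norm_div, Complex.norm_real, Real.norm_of_nonneg hDp.le]
    exact div_le_div_of_nonneg_right ((hC X).trans
      (mul_le_mul_of_nonneg_right (le_abs_self C) (Real.sqrt_nonneg _))) hDp.le
  have h5 := (h4.add (h1.const_mul (1 / 2 : ℂ))).add h2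
  have e : (0 : ℂ) + 1 / 2 * 0 + ((R12.cP * (3 / 5) : ℝ) : ℂ) =
      (((2 * Real.pi) ^ ((2 : ℝ) / 3) / (5 * Real.Gamma (2 / 3)) : ℝ) : ℂ) := by
    rw [mul_zero, add_zero, zero_add]
    congr 1
    have : Real.Gamma (2 / 3) ≠ 0 := (Real.Gamma_pos_of_pos (by norm_num)).ne'
    unfold R12.cP
    field_simp
  rw [e] at h5
  refine h5.congr fun X => ?_
  simp only [Function.comp, hD]
  push_cast
  ring

end Crest.Agent.S0013
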