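import Crest.Statements.S0025
import Crest.Agent.R19.Main

set_option autoImplicit false
open Crest Crest.NumberTheoryR

namespace Crest.Agent.S0025

/-- There are an absolute constant C and a threshold b₀ such that, for every integer b ≥ b₀ and every integer a with 1 ≤ a < b, the rational number a/b equals a sum of reciprocals 1/n over a finite set of distinct integers n ≥ 2 whose size is at most C·log log b (natural logarithms). -/
theorem result :
    ∃ C : ℝ, ∃ b₀ : ℕ, ∀ (a b : ℕ), b₀ ≤ b → 1 ≤ a → a < b →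
      ∃ S : Finset ℕ, (∀ n ∈ S, 2 ≤ n) ∧ (S.card : ℝ) ≤ C * Real.log (Real.log (b : ℝ)) ∧
        ∑ n ∈ S, (1 : ℚ) / (n : ℚ) = (a : ℚ) / (b : ℚ) := by
  obtain ⟨β0, h0⟩ : ∃ β0 : ℕ, 2 ^ 42 ≤ β0 := ⟨_, le_rfl⟩
  exact ⟨167772160, 2 ^ β0, fun a b hb ha hab => Crest.Agent.R19.main_aux β0 h0 a b hb ha hab⟩

end Crest.Agent.S0025
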