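import Crest.Statements.S0042
import Crest.Agent.R32.Params

set_option autoImplicit false
open Crest Crest.CombinatoricsR

namespace Crest.Agent.S0042

/-- There are real constants η > 0 and c > 0 and a threshold n₀ such that for every natural number n ≥ n₀ some n points of the closed unit square have the property that every triangle with three distinct vertices among them has area at least c · n ^ (-2 + η). The area of the triangle p q r is half the absolute value of the determinant of q - p and r - p. -/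
theorem result :
    ∃ η : ℝ, 0 < η ∧ ∃ c : ℝ, 0 < c ∧ ∃ n₀ : ℕ, ∀ n : ℕ, n₀ ≤ n →
      ∃ P : Finset (ℝ × ℝ), P.card = n ∧
        (∀ p ∈ P, 0 ≤ p.1 ∧ p.1 ≤ 1 ∧ 0 ≤ p.2 ∧ p.2 ≤ 1) ∧
        ∀ p ∈ P, ∀ q ∈ P, ∀ r ∈ P, p ≠ q → p ≠ r → q ≠ r →
          c * (n : ℝ) ^ (-2 + η) ≤ |(q.1 - p.1) * (r.2 - p.2) - (q.2 - p.2) * (r.1 - p.1)| / 2 := by
  classical
  obtain ⟨κ, C, u₀, hκ, hC, hu₀, H⟩ := Crest.Agent.R32.param_main
  have hC0 : (0 : ℝ) < C := by exact_mod_cast hC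
  have hκ0 : (0 : ℝ) < κ := by exact_mod_cast hκ
  refine ⟨(κ : ℝ)⁻¹, by positivity, 1 / (2 * C), by positivity, u₀ ^ κ, fun n hn => ?_⟩
  have hex : ∃ v : ℕ, n < v ^ κ :=
    ⟨n + 1, lt_of_lt_of_le (Nat.lt_succ_self n) (Nat.le_self_pow (by omega) _)⟩
  obtain ⟨v, hv⟩ : ∃ v, v = Nat.find hex := ⟨_, rfl⟩
  have v1 : n < v ^ κ := hv ▸ Nat.find_spec hex
  have v2 : u₀ < v := lt_of_pow_lt_pow_left₀ κ (Nat.zero_le _) (lt_of_le_of_lt hn v1)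
  obtain ⟨u, rfl⟩ : ∃ u, v = u + 1 := ⟨v - 1, by omega⟩
  have v3 : u ^ κ ≤ n := by
    have := Nat.find_min hex (m := u) (by omega)
    omega
  have hn1 : 1 ≤ n := (Nat.one_le_pow _ _ hu₀).trans hn
  have hn0 : (0 : ℝ) < n := by exact_mod_cast hn1
  apply H u n (by omega) v3 v1 _ (by positivity)
  have h1 : (n : ℝ) ^ (κ : ℝ)⁻¹ ≤ u + 1 := by
    have h2 : (n : ℝ) ≤ ((u : ℝ) + 1) ^ κ := by exact_mod_cast v1.le
    calc (n : ℝ) ^ (κ : ℝ)⁻¹ ≤ (((u : ℝ) + 1) ^ κ) ^ (κ : ℝ)⁻¹ :=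
          Real.rpow_le_rpow hn0.le h2 (by positivity)
      _ = u + 1 := Real.pow_rpow_inv_natCast (by positivity) (by omega)
  have h2 : (n : ℝ) ^ (-2 + (κ : ℝ)⁻¹) * (n : ℝ) ^ 2 = (n : ℝ) ^ (κ : ℝ)⁻¹ := by
    rw [← Real.rpow_natCast, ← Real.rpow_add hn0]
    congr 1
    push_cast
    ring
  have h3 : (1 : ℝ) ≤ u := by exact_mod_cast (by omega : 1 ≤ u)
  calc 1 / (2 * (C : ℝ)) * (n : ℝ) ^ (-2 + (κ : ℝ)⁻¹) * (C * (n : ℝ) ^ 2)
      = ((n : ℝ) ^ (-2 + (κ : ℝ)⁻¹) * (n : ℝ) ^ 2) / 2 := by field_simp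
    _ ≤ (u : ℝ) := by rw [h2]; linarith

end Crest.Agent.S0042
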