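import Crest.Statements.S0085
import Crest.Agent.R63.Final

set_option autoImplicit false
open Crest Crest.CombinatoricsR

namespace Crest.Agent.S0085

/-- For every real C > 0 there are a natural number n, a Boolean function f on the n-dimensional Boolean cube and a natural number d such that: f is non-constant; every Fourier–Walsh coefficient of f (values and inputs read as signs +1 for true and -1 for false, averaged over the uniform cube) indexed by a set of more than d coordinates vanishes, so f has degree at most d; and the sum of the n singleton Fourier–Walsh coefficients of f exceeds C times the square root of d. -/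
theorem result (C : ℝ) (hC : 0 < C) :
    ∃ n : ℕ, ∃ f : (Fin n → Bool) → Bool, ∃ d : ℕ,
      (∃ x y, f x ≠ f y) ∧
      (∀ S : Finset (Fin n), d < S.card →
        ∑ x : Fin n → Bool, ((if f x then (1 : ℝ) else -1) * ∏ i ∈ S, (if x i then (1 : ℝ) else -1)) = 0) ∧
      C * Real.sqrt d <
        ∑ i : Fin n, (∑ x : Fin n → Bool, ((if f x then (1 : ℝ) else -1) * (if x i then (1 : ℝ) else -1))) / 2 ^ n := by
  classical
  obtain ⟨ι, _, _, f, d, hdeg, hL⟩ := R63.exists_fun C hC
  let e := Fintype.equivFin ι
  let E : (Fin (Fintype.card ι) → Bool) ≃ (ι → Bool) := Equiv.arrowCongr e.symm (Equiv.refl Bool)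
  have hE : ∀ x i, E x i = x (e i) := fun _ _ => rfl
  have hpos : 0 < Finset.expect Finset.univ (fun x => R63.X x * R63.sg (f x)) :=
    lt_of_le_of_lt (by positivity) hL
  refine ⟨Fintype.card ι, fun x => f (E x), d, ?_, ?_, ?_⟩
  · by_contra hcon
    push Not at hcon
    have hc : ∀ x, f x = f (fun _ => true) := fun x => by
      simpa using hcon (E.symm x) (E.symm (fun _ => true))
    have h0 : Finset.expect Finset.univ (fun x : ι → Bool => R63.X x * R63.sg (f x)) = 0 := by
      rw [Fintype.expect_eq_sum_div_card]
      simp only [hc, R63.X, Finset.sum_mul]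
      rw [Finset.sum_comm, Finset.sum_eq_zero, zero_div]
      intro i _
      have := R63.sum_mul_char_eq_zero (R63.const_mem_Deg (ι := ι) 0 (R63.sg (f (fun _ => true))))
        {i} (by simp)
      simpa [mul_comm] using this
    linarith
  · intro S hS
    have h := R63.sum_mul_char_eq_zero hdeg (S.map e.symm.toEmbedding) (by simpa using hS)
    rw [← Equiv.sum_comp E] at h
    rw [← h]
    refine Finset.sum_congr rfl fun x _ => ?_
    simp [R63.sg, hE]
  · refine hL.trans_le (le_of_eq ?_)
    rw [Fintype.expect_eq_sum_div_card, ← Finset.sum_div, Finset.sum_comm, ← Equiv.sum_comp E]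
    congr 1
    · refine Finset.sum_congr rfl fun x _ => ?_
      rw [← Finset.mul_sum, mul_comm, R63.X, ← Equiv.sum_comp e]
      simp [R63.sg, hE]
    · simp

end Crest.Agent.S0085
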