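import Crest.Statements.S0099
import Crest.Agent.R74.Ultra

set_option autoImplicit false
open Crest Crest.AnalysisR

namespace Crest.Agent.S0099

/-- Let X and Y be nonzero real Banach spaces and let f be a surjective distance-preserving map from the unit sphere of X onto the unit sphere of Y. Then there is a surjective real-linear isometry T from X to Y that agrees with f on the unit sphere, and every real-linear map from X to Y that agrees with f on the unit sphere coincides with T. -/
theorem result
    {X Y : Type*} [NormedAddCommGroup X] [NormedSpace ℝ X] [CompleteSpace X] [Nontrivial X]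
    [NormedAddCommGroup Y] [NormedSpace ℝ Y] [CompleteSpace Y] [Nontrivial Y]
    (f : Metric.sphere (0 : X) 1 → Metric.sphere (0 : Y) 1) (hf₁ : Isometry f)
    (hf₂ : Function.Surjective f) :
    ∃ T : X ≃ₗᵢ[ℝ] Y, (∀ x : Metric.sphere (0 : X) 1, T x = f x) ∧
      ∀ T' : X →ₗ[ℝ] Y, (∀ x : Metric.sphere (0 : X) 1, T' x = f x) → ∀ x : X, T' x = T x := by
  classical
  obtain ⟨e, he⟩ : ∃ e : X, ‖e‖ = 1 := exists_norm_eq X zero_le_one
  have hm : ∀ {x : X}, ‖x‖ = 1 → x ∈ Metric.sphere (0 : X) 1 := fun h => by simpa using h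
  have hm' : ∀ {x : Y}, ‖x‖ = 1 → x ∈ Metric.sphere (0 : Y) 1 := fun h => by simpa using h
  choose g hg using hf₂
  let S : R74.SI X Y :=
    { f := fun x => if h : ‖x‖ = 1 then f ⟨x, hm h⟩ else 0
      g := fun y => if h : ‖y‖ = 1 then g ⟨y, hm' h⟩ else 0
      nf := fun x h => by simp [h]
      ng := fun x h => by simp [h]
      gf := fun x h => by
        simp only [h, dif_pos, norm_eq_of_mem_sphere, Subtype.coe_eta]
        rw [hf₁.injective (hg (f ⟨x, hm h⟩))]
      fg := fun y h => by
        simp only [h, dif_pos, norm_eq_of_mem_sphere, Subtype.coe_eta]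
        rw [hg]
      d := fun x x' h h' => by
        simp only [h, h', dif_pos]
        have := hf₁.dist_eq ⟨x, hm h⟩ ⟨x', hm h'⟩
        rwa [Subtype.dist_eq, Subtype.dist_eq, dist_eq_norm, dist_eq_norm] at this }
  obtain ⟨T, hT⟩ := S.exists_equiv he
  have hT' : ∀ x : Metric.sphere (0 : X) 1, T x = f x := fun x => by
    rw [hT x (norm_eq_of_mem_sphere x)]
    simp [S]
  refine ⟨T, hT', fun T' h x => ?_⟩
  obtain ⟨s, u, -, hu, rfl⟩ := R74.SI.exists_polar he x
  rw [map_smul, map_smul, h ⟨u, hm hu⟩, hT' ⟨u, hm hu⟩]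

end Crest.Agent.S0099
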