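import Crest.Statements.S0100
import Crest.Agent.R75.Final

set_option autoImplicit false
open Crest Crest.AnalysisR

namespace Crest.Agent.S0100

/-- For every real `ε` with `0 < ε < 1` there is a threshold `N₀` such that for every integer `N ≥ N₀` one can choose signs `c 0, …, c (N-1)` in `{-1, 1}` so that the polynomial `∑ k, c k * z ^ k` has modulus between `(1 - ε) * √N` and `(1 + ε) * √N` at every complex number `z` of modulus one. -/
theorem result (ε : ℝ) (hε : 0 < ε)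
    (hε₁ : ε < 1) :
    ∃ N₀ : ℕ, ∀ N ≥ N₀, ∃ c : Fin N → ℤˣ, ∀ z : ℂ, ‖z‖ = 1 →
      (1 - ε) * Real.sqrt N ≤ ‖∑ k : Fin N, ((c k : ℤ) : ℂ) * z ^ (k : ℕ)‖ ∧
        ‖∑ k : Fin N, ((c k : ℤ) : ℂ) * z ^ (k : ℕ)‖ ≤ (1 + ε) * Real.sqrt N := by
  obtain ⟨N₀, h⟩ := Crest.Agent.R75.ultraflat ε hε hε₁
  refine ⟨N₀, fun N hN => ?_⟩
  obtain ⟨c, hc, hθ⟩ := h N hN
  classical
  refine ⟨fun k => if c k = 1 then 1 else -1, fun z hz => ?_⟩
  obtain ⟨t, rfl⟩ := Crest.Agent.R75.exists_ee_of_norm_one hz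
  have e : ∑ k : Fin N, ((((if c k = 1 then 1 else -1 : ℤˣ) : ℤ) : ℂ)
      * Crest.Agent.R75.ee t ^ (k : ℕ))
      = ∑ k ∈ Finset.range N, (c k : ℂ) * Crest.Agent.R75.ee (k * t) := by
    rw [Finset.sum_range]
    refine Finset.sum_congr rfl fun k _ => ?_
    rw [Crest.Agent.R75.ee_nat_mul]
    congr 1
    rcases hc k with h1 | h1
    · simp [h1]
    · have h2 : c k ≠ 1 := by rw [h1]; norm_num
      rw [if_neg h2, h1]; simp
  rw [e]
  exact hθ t

end Crest.Agent.S0100
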