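import Crest.Statements.S0128
import Crest.Agent.R97.Main

set_option autoImplicit false
open MeasureTheory
open scoped ENNReal RealInnerProductSpace
open Crest.AnalysisR.PDE.OnePhase
open Crest Crest.AnalysisR Crest.AnalysisR.PDE Crest.AnalysisR.PDE.OnePhase

namespace Crest.Agent.S0128

/-- In dimensions 1 ≤ d ≤ 6, every nonzero one-homogeneous global minimizer of the one-phase Bernoulli energy J(v; B) = ∫_B ‖∇v‖² + vol({v > 0} ∩ B) is flat: if u ≥ 0 on ℝᵈ has a locally square-integrable weak gradient, satisfies u(rx) = r u(x) for r > 0, minimises J on every ball among nonnegative Sobolev competitors with the same boundary values, and is not almost everywhere zero, then u agrees almost everywhere with x ↦ max(⟪x, e⟫, 0) for some unit vector e. -/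
theorem result
    (d : ℕ) (hd1 : 1 ≤ d) (hd6 : d ≤ 6)
    (u : EuclideanSpace ℝ (Fin d) → ℝ) (G : EuclideanSpace ℝ (Fin d) → EuclideanSpace ℝ (Fin d))
    (hmin : IsGlobalMinimizer u G) (hhom : IsOneHomogeneous u)
    (hne : ¬ (u =ᵐ[volume] 0)) :
    ∃ e : EuclideanSpace ℝ (Fin d), ‖e‖ = 1 ∧ u =ᵐ[volume] fun x => max (inner ℝ x e) 0 := by
  obtain ⟨L, v, hv, hh, hae⟩ := Crest.Agent.R97.sob_rep hd1 hmin hhom
  have hp : ∃ x, 0 < v x := by
    by_contra hn
    push Not at hn
    apply hne
    have h0 : v = 0 := funext fun x => le_antisymm (hn x) (hv.nn x)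
    rw [h0] at hae
    exact hae
  obtain ⟨e, he, h⟩ := Crest.Agent.R97.flat_all d hd1 hd6 L v hv hh hp
  exact ⟨e, he, hae.trans (Filter.Eventually.of_forall h)⟩

end Crest.Agent.S0128
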