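import Crest.Statements.S0170
import Crest.Agent.R126.Extend
import Crest.Agent.R126.Motion

set_option autoImplicit false
open scoped ContDiff
open Crest.AnalysisR.BoxFlow
open Crest Crest.AnalysisR

namespace Crest.Agent.S0170

/-- Finitely many pairwise disjoint rational boxes in 3-space are carried onto disjoint target boxes, each a translated determinant-one positive diagonal rescaling of its source, by the time-one flow of a smooth, compactly supported, effective, divergence-free velocity field active only in [1/4,3/4]. The flow equals the prescribed affine map on a neighbourhood of each source box. Effective: computably approximable mixed derivatives at rational points and computable global derivative bounds. -/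
theorem result
    (n : ℕ) (a b h k : Fin n → Fin 3 → ℚ)
    (hh : ∀ i j, 0 < h i j) (hk : ∀ i j, 0 < k i j)
    (ha : Pairwise fun i i' => Disjoint (box (a i) (h i)) (box (a i') (h i')))
    (hb : Pairwise fun i i' => Disjoint (box (b i) (k i)) (box (b i') (k i')))
    (hvol : ∀ i, ∏ j : Fin 3, k i j / h i j = 1) :
    ∃ (U : Field) (Φ : ℝ → (Fin 3 → ℝ) → (Fin 3 → ℝ)),
      ContDiff ℝ ∞ U ∧ HasCompactSupport U ∧ Effective U ∧
      (∀ p : ℝ × (Fin 3 → ℝ), p.1 ∉ Set.Icc (1 / 4 : ℝ) (3 / 4) → U p = 0) ∧
      (∀ p : ℝ × (Fin 3 → ℝ), spaceDiv U p = 0) ∧ IsFlow U Φ ∧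
      ∀ i : Fin n, ∃ O : Set (Fin 3 → ℝ), IsOpen O ∧ box (a i) (h i) ⊆ O ∧
        ∀ x ∈ O, Φ 1 x = fun j => (b i j : ℝ) + ((k i j / h i j : ℚ) : ℝ) * (x j - (a i j : ℝ)) := by
  obtain ⟨c, lam, δ, hδ, hc, hl, hpos, hprod, hc0, hl0, hsep, c0, l0, c1, l1⟩ :=
    R126.exists_motion n a b h k hh hk ha hb hvol
  obtain ⟨U, hU1, hU2, hU3, hU4, hU5, hU6⟩ := R126.exists_extension c lam
    (fun i j => h i j + 2 * δ) hδ hc hl hpos hprod hc0 hl0 hsep
  have hδ' : (0 : ℝ) < δ := by exact_mod_cast hδ
  set O : Fin n → Set (Fin 3 → ℝ) := fun i => {x | ∀ j, |x j - a i j| < h i j + δ} with hO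
  have key : ∀ x : Fin 3 → ℝ, ∃ γ : ℝ → Fin 3 → ℝ, γ 0 = x ∧ (∀ t, HasDerivAt γ (U (t, γ t)) t) ∧
      ∀ i, x ∈ O i →
        γ 1 = fun j => (b i j : ℝ) + ((k i j / h i j : ℚ) : ℝ) * (x j - (a i j : ℝ)) := by
    intro x
    by_cases hx : ∃ i, x ∈ O i
    · obtain ⟨i, hi⟩ := hx
      refine ⟨fun t j => c i j t + lam i j t * (x j - a i j), ?_, fun t => ?_, fun i' hi' => ?_⟩
      · funext j
        simp [c0, l0]
      · rw [hU6 i t]
        · refine hasDerivAt_pi.2 fun j => ?_
          have h1 := ((hc i j).smooth.differentiable (by simp) t).hasDerivAt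
          have h2 := ((hl i j).smooth.differentiable (by simp) t).hasDerivAt
          refine (h1.fun_add (h2.mul_const (x j - a i j))).congr_deriv ?_
          have := (hpos i j t).ne'
          field_simp
          ring
        · intro j
          rw [add_sub_cancel_left, abs_mul, abs_of_pos (hpos i j t)]
          refine mul_lt_mul_of_pos_left ((hi j).trans_eq ?_) (hpos i j t)
          push_cast
          ring
      · have hii : i = i' := by
          by_contra hne
          obtain ⟨j, hj⟩ := hsep 0 i i' hne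
          simp only [c0, l0, one_mul] at hj
          push_cast at hj
          have h1 := hi j
          have h2 := hi' j
          have h3 := abs_sub_le (a i j : ℝ) (x j) (a i' j)
          rw [abs_sub_comm (a i j : ℝ) (x j)] at h3
          linarith
        subst hii
        funext j
        simp only [c1, l1]
    · obtain ⟨γ, h0, h1⟩ := R126.exists_integral_curve hU1 hU2 hU4 x
      exact ⟨γ, h0, h1, fun i hi => absurd ⟨i, hi⟩ hx⟩
  choose γ hγ0 hγ1 hγ2 using key
  refine ⟨U, fun t x => γ x t, hU1, hU2, hU3, hU4, hU5, ⟨hγ0, fun t x => hγ1 x t⟩, fun i =>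
    ⟨O i, ?_, fun x hx j => (hx j).trans_lt (by linarith), fun x hx => hγ2 x i hx⟩⟩
  simp only [hO, Set.ofPred_forall]
  exact isOpen_iInter_of_finite fun j => isOpen_lt (by fun_prop) continuous_const

end Crest.Agent.S0170
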