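import Crest.Statements.S0180
import Crest.Agent.R132.S180Main

set_option autoImplicit false
open scoped ComplexOrder
open Crest.AnalysisR.NumRange
open Crest Crest.AnalysisR Crest.AnalysisR.NumRange

namespace Crest.Agent.S0180

/-- Let A be an n × n complex matrix, n ≥ 1, whose numerical range lies in a bounded open convex set Ω, and let f be holomorphic and injective on an open set containing the closure of Ω with f(Ω) the open unit disc. Realise T = f(A) as p(A) for any polynomial p agreeing with f to order n on the spectrum of A. Then the metric problem for T (H with I ≼ H ≼ τ I and Tᴴ H T ≼ H) is strictly feasible, and its least τ is attained and lies between 1 and 4. -/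
theorem result
    (n : ℕ) (hn : 1 ≤ n) (A : Matrix (Fin n) (Fin n) ℂ)
    (Ω U : Set ℂ) (hΩ₁ : IsOpen Ω) (hΩ₂ : Bornology.IsBounded Ω) (hΩ₃ : Convex ℝ Ω)
    (hU : IsOpen U) (hΩU : closure Ω ⊆ U)
    (f : ℂ → ℂ) (hf₁ : DifferentiableOn ℂ f U) (hf₂ : Set.InjOn f U)
    (hf₃ : f '' Ω = Metric.ball 0 1)
    (hA : numRange A ⊆ Ω) (p : Polynomial ℂ) (hp : AgreesOnSpectrum A f p) :
    (∃ (H : Matrix (Fin n) (Fin n) ℂ) (τ : ℝ), MetricStrictlyFeasible (Polynomial.aeval A p) H τ) ∧
    ∃ (H : Matrix (Fin n) (Fin n) ℂ) (κsq : ℝ),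
      IsOptimalMetric (Polynomial.aeval A p) H κsq ∧ 1 ≤ κsq ∧ κsq ≤ 4 := by
  exact Crest.Agent.R132.s0180 n hn A Ω U hΩ₁ hΩ₂ hΩ₃ hU hΩU f hf₁ hf₂ hf₃ hA p hp

end Crest.Agent.S0180
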