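import Crest.Statements.S0181
import Crest.Agent.R132.S181Main

set_option autoImplicit false
open scoped ComplexOrder
open Crest.AnalysisR.NumRange
open Crest Crest.AnalysisR Crest.AnalysisR.NumRange

namespace Crest.Agent.S0181

/-- Setting of the optimal-metric statement; also G is holomorphic and injective on {t : r < ‖t‖} for some r < 1 with G({t : 1 < ‖t‖}) the complement of the closure of Ω, (H, κ²) is an optimal metric pair for f(A), and S ≽ 0 with S² = H. Then one continuous 2π-periodic positive semidefinite density Λ of mean I gives, for all m ≥ 1 and m × m matrix-valued v holomorphic near the closure of Ω, v[SAS⁻¹] = (1/2π) ∫ Λ(θ) ⊗ v(G(e^{iθ})) dθ entrywise, and ‖v[A]‖ ≤ κ sup ‖v‖ over the closure of Ω. -/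
theorem result
    (n : ℕ) (hn : 1 ≤ n) (A : Matrix (Fin n) (Fin n) ℂ)
    (Ω U : Set ℂ) (hΩ₁ : IsOpen Ω) (hΩ₂ : Bornology.IsBounded Ω) (hΩ₃ : Convex ℝ Ω)
    (hU : IsOpen U) (hΩU : closure Ω ⊆ U)
    (f : ℂ → ℂ) (hf₁ : DifferentiableOn ℂ f U) (hf₂ : Set.InjOn f U)
    (hf₃ : f '' Ω = Metric.ball 0 1)
    (G : ℂ → ℂ) (r : ℝ) (hr₁ : 0 < r) (hr₂ : r < 1)
    (hG₁ : DifferentiableOn ℂ G {t : ℂ | r < ‖t‖}) (hG₂ : Set.InjOn G {t : ℂ | r < ‖t‖})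
    (hG₃ : G '' {t : ℂ | 1 < ‖t‖} = (closure Ω)ᶜ)
    (hA : numRange A ⊆ Ω) (p : Polynomial ℂ) (hp : AgreesOnSpectrum A f p)
    (H : Matrix (Fin n) (Fin n) ℂ) (κsq : ℝ) (hH : IsOptimalMetric (Polynomial.aeval A p) H κsq)
    (S : Matrix (Fin n) (Fin n) ℂ) (hS₁ : S.PosSemidef) (hS₂ : S * S = H) :
    ∃ Λ : ℝ → Matrix (Fin n) (Fin n) ℂ, Continuous Λ ∧ Function.Periodic Λ (2 * Real.pi) ∧
      (∀ θ, (Λ θ).PosSemidef) ∧
      (∀ a b, (2 * Real.pi : ℂ)⁻¹ * (∫ θ in (0 : ℝ)..2 * Real.pi, Λ θ a b)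
        = (1 : Matrix (Fin n) (Fin n) ℂ) a b) ∧
      ∀ (m : ℕ), 1 ≤ m → ∀ (V : Set ℂ), IsOpen V → closure Ω ⊆ V →
        ∀ v : ℂ → Matrix (Fin m) (Fin m) ℂ, (∀ c d, DifferentiableOn ℂ (fun z => v z c d) V) →
        ∀ q : Fin m → Fin m → Polynomial ℂ,
          (∀ c d, AgreesOnSpectrum A (fun z => v z c d) (q c d)) →
          (∀ a b c d, Polynomial.aeval (S * A * S⁻¹) (q c d) a b =
              (2 * Real.pi : ℂ)⁻¹ * (∫ θ in (0 : ℝ)..2 * Real.pi,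
                Λ θ a b * v (G (Complex.exp ((θ : ℂ) * Complex.I))) c d)) ∧
          ∀ M : ℝ, (∀ z ∈ closure Ω, ‖Matrix.toEuclideanCLM (n := Fin m) (𝕜 := ℂ) (v z)‖ ≤ M) →
            ‖Matrix.toEuclideanCLM (n := Fin n × Fin m) (𝕜 := ℂ)
                (Matrix.of fun (i : Fin n × Fin m) (j : Fin n × Fin m) =>
                  Polynomial.aeval A (q i.2 j.2) i.1 j.1)‖ ≤ Real.sqrt κsq * M := by
  exact Crest.Agent.R132.S181.s0181 n hn A Ω U hΩ₁ hΩ₂ hU hΩU f hf₁ hf₂ hf₃ G r hr₂ hG₁ hG₂ hG₃ hA p hp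
    H κsq hH.1 S hS₁ hS₂

end Crest.Agent.S0181
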