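import Crest.Statements.S0213
import Crest.Agent.R151.PartA
import Crest.Agent.R151.PartC

set_option autoImplicit false
open Crest.ProbabilityR.FirstPassage
open Crest Crest.ProbabilityR Crest.ProbabilityR.FirstPassage

namespace Crest.Agent.S0213

/-- Independent edge weights on the square lattice with a common atomless law on the reals that charges no negative number, such that the square of the minimum of four independent samples has finite mean: with probability one there is no bigeodesic, that is, no two-sided path of distinct neighbouring lattice points all of whose finite segments realise the passage time between their endpoints. -/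
theorem result
    (G : MeasureTheory.Measure ℝ) [MeasureTheory.IsProbabilityMeasure G] [MeasureTheory.NullSingletonClass G]
    (hG : G (Set.Iio 0) = 0)
    (hmom : ∫⁻ x, ENNReal.ofReal ((⨅ i, x i) ^ 2) ∂(MeasureTheory.Measure.pi fun _ : Fin 4 => G) < ⊤) :
    iidLaw G {t | ∃ v : ℤ → ℤ × ℤ, IsBigeodesic t v} = 0 := by
  exact R151.partC G ⟨hG, hmom⟩ (R151.partA G ⟨hG, hmom⟩)

end Crest.Agent.S0213
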