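import Crest.Statements.S0274
import Crest.Agent.R177.Main

set_option autoImplicit false
open Crest.Topology
open Crest Crest.AlgebraR

namespace Crest.Agent.S0274

/-- There is a finitely presented group in which only the identity has finite order, having a finite classifying complex of dimension at most two (a finite Hausdorff CW complex with no cells above dimension two, with a contractible cover and with fundamental group isomorphic to the group), together with two elements a and b of its group algebra over the field with two elements such that a * b = 1 but b * a ≠ 1. -/
theorem result :
    ∃ (G : Type) (_ : Group G), Group.IsFinitelyPresented G ∧ (∀ g : G, IsOfFinOrder g → g = 1) ∧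
      HasFiniteClassifyingComplex G 2 ∧
      ∃ a b : MonoidAlgebra (ZMod 2) G, a * b = 1 ∧ b * a ≠ 1 := by
  obtain ⟨G, iG, h1, -, h2, h3, -, a, b, c, hab, hac, hc⟩ := Crest.Agent.R177.master 2
  refine ⟨G, iG, h1, h2, h3, a, b, hab, ?_⟩
  intro hba
  apply hc
  calc c = b * a * c := by rw [hba, one_mul]
    _ = 0 := by rw [mul_assoc, hac, mul_zero]

end Crest.Agent.S0274
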