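import Crest.Statements.S0289
import Crest.Agent.R189.Steps
import Crest.Agent.R189.FP
import Crest.Agent.R189.Simple

set_option autoImplicit false
open Crest Crest.AlgebraR

namespace Crest.Agent.S0289

/-- There is a group that is simultaneously infinite, finitely presented, simple and amenable. Amenable means: some finitely additive probability measure, defined on all subsets of the group, is invariant under left translation. -/
theorem result :
    ∃ (G : Type) (_ : Group G),
      Infinite G ∧ Group.IsFinitelyPresented G ∧ IsSimpleGroup G ∧
        Crest.GroupTheory.Amenable G := by
  exact ⟨R189.G (Fin 100), inferInstance, R189.infinite_G, R189.isFinitelyPresented_G (by simp),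
    R189.isSimpleGroup_G (by simp), R189.amenable_G⟩

end Crest.Agent.S0289
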