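import Crest.Statements.S0310
import Crest.Agent.R202.Core
import Crest.Agent.R202.YFam
import Crest.Agent.R202.Arith

set_option autoImplicit false
open scoped ContDiff
open Crest.GeometryTopology.CoordMetric
open Crest Crest.GeometryTopology

namespace Crest.Agent.S0310

/-- For some even n ≥ 8 and some natural number k ≥ 2, some C^∞ Riemannian metric on ℝⁿ (a matrix field in standard coordinates) is complete, equals the Euclidean metric near the origin, has Ricci curvature non-negative everywhere, has asymptotic volume ratio v for some 0 < v < 1, and admits m linearly independent C^∞ harmonic functions f bounded in absolute value by C_f (1 + d(0,x))^k, d its path distance, for some m exceeding C(n+k-1,k) + C(n+k-2,k-1), the count for the Euclidean metric. -/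
theorem result :
    ∃ n : ℕ, Even n ∧ 8 ≤ n ∧ ∃ k : ℕ, 2 ≤ k ∧ ∃ g : MetricField n,
      IsRiemannianOn g Set.univ ∧ IsCompleteOn g Set.univ ∧
      (∃ r : ℝ, 0 < r ∧ ∀ x : EuclideanSpace ℝ (Fin n), ‖x‖ < r → g x = 1) ∧
      RicciNonnegOn g Set.univ ∧
      (∃ v : ℝ, 0 < v ∧ v < 1 ∧ HasAsymptoticVolumeRatio g v) ∧
      ∃ m : ℕ, Nat.choose (n + k - 1) k + Nat.choose (n + k - 2) (k - 1) < m ∧
        ∃ f : Fin m → EuclideanSpace ℝ (Fin n) → ℝ,
          LinearIndependent ℝ f ∧ ∀ i, IsHarmonicOn g Set.univ (f i) ∧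
            ∃ C : ℝ, ∀ x, abs (f i x) ≤ C * (1 + riemDist g Set.univ 0 x) ^ k := by
  obtain ⟨b, ε, ϵ, hb, hb₁, hε, hϵ, h⟩ := R202.arith8
  obtain ⟨D₀, hD⟩ := R202.core 2 5 hb hb₁ hε hϵ
  obtain ⟨k, s, a₀, a₁, hk, hs, h₁, h₂⟩ := h D₀
  obtain ⟨Y, hY, hI⟩ := R202.exists_Y 5 (by norm_num)
  let cl : s → R202.Cl 2 (5 + 3) := fun i => ⟨i.1, Or.inr ⟨rfl, by norm_num, (h₁ i.1 i.2).1⟩⟩
  haveI : Nonempty s := hs.to_subtype
  obtain ⟨g, hg, f, hf, hh⟩ := hD s cl (fun _ _ h => Subtype.ext h) (fun i => a₀ i) (fun i => a₁ i) k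
    (fun i => ⟨(h₁ i.1 i.2).2.1, (h₁ i.1 i.2).2.2.1, fun _ =>
      ⟨(h₁ i.1 i.2).2.2.2.1, (h₁ i.1 i.2).2.2.2.2.1⟩⟩)
    (fun i => by
      have := (h₁ i.1 i.2).2.2.2.2.2
      have e : (((5 : ℕ) : ℝ) + 1) / 2 = 3 := by norm_num
      rw [e]; exact this)
    (fun i => Fin ((i.1 + 5).choose 5 - (i.1 + 5 - 2).choose 5)) (fun i a => Y i.1 a)
    (fun i a => hY i.1 a) (hI s (fun i => i.1) Subtype.val_injective)
  refine ⟨5 + 3, by decide, le_rfl, k, hk, g, hg.riem, hg.complete, hg.eucl, hg.nonneg,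
    ⟨_, by positivity, pow_lt_one₀ hb.le hb₁ (by norm_num), hg.avr⟩, _, ?_, f, hf, hh⟩
  simp only [Fintype.card_fin]
  rw [Finset.sum_coe_sort s (fun j => ((j + 5).choose 5 - (j + 5 - 2).choose 5) *
    (R202.cnt 2 (a₁ j) - R202.cnt 2 (a₀ j)))]
  exact h₂

end Crest.Agent.S0310
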