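import Crest.Statements.S0354
import Crest.Agent.R230.Main54

set_option autoImplicit false
open MeasureTheory
open scoped ENNReal
open Crest Crest.GeometryTopology Crest.GeometryTopology.Convex

namespace Crest.Agent.S0354

/-- Let `n ≥ 4` and `K` a convex body in Euclidean `n`-space; `κ_m` is the volume of the unit `m`-ball and `ΠK` the projection body of `K`: the points `x` with `⟪x, u⟫ ≤ vol_{n-1}(P_u K)` for all unit `u`, `P_u K` the orthogonal projection of `K` on `u^⊥`, `vol_{n-1}` its `(n-1)`-dimensional volume (Hausdorff measure normalised to Lebesgue measure). Then `κ_{n-1}^n vol(K)^(n-1) ≤ vol(ΠK) κ_n^(n-2)`, with equality exactly when `K = a + T(B)`, `T` invertible linear, `B` the closed unit ball. -/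
theorem result (n : ℕ) (hn : 4 ≤ n)
    (K : Set (EuclideanSpace ℝ (Fin n))) (hK : IsCompact K) (hKc : Convex ℝ K) (hKi : (interior K).Nonempty) :
    volume (Metric.ball (0 : EuclideanSpace ℝ (Fin (n - 1))) 1) ^ n * volume K ^ (n - 1) ≤
        volume (⋂ u ∈ Metric.sphere (0 : EuclideanSpace ℝ (Fin n)) 1,
          {x : EuclideanSpace ℝ (Fin n) | inner ℝ x u ≤
            ((μHE[n - 1] : Measure (EuclideanSpace ℝ (Fin n))) ((fun y => y - inner ℝ y u • u) '' K)).toReal}) *
          volume (Metric.ball (0 : EuclideanSpace ℝ (Fin n)) 1) ^ (n - 2) ∧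
      (volume (Metric.ball (0 : EuclideanSpace ℝ (Fin (n - 1))) 1) ^ n * volume K ^ (n - 1) =
          volume (⋂ u ∈ Metric.sphere (0 : EuclideanSpace ℝ (Fin n)) 1,
          {x : EuclideanSpace ℝ (Fin n) | inner ℝ x u ≤
            ((μHE[n - 1] : Measure (EuclideanSpace ℝ (Fin n))) ((fun y => y - inner ℝ y u • u) '' K)).toReal}) *
            volume (Metric.ball (0 : EuclideanSpace ℝ (Fin n)) 1) ^ (n - 2) ↔
        ∃ (a : EuclideanSpace ℝ (Fin n)) (T : EuclideanSpace ℝ (Fin n) ≃ₗ[ℝ] EuclideanSpace ℝ (Fin n)),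
          K = (fun x => a + T x) '' Metric.closedBall 0 1) := by
  have : NeZero n := ⟨by omega⟩
  obtain ⟨x₀, hx₀⟩ := hKi
  have hK' : IsCompact ((fun x => -x₀ + x) '' K) := hK.image (by fun_prop)
  have hKc' : Convex ℝ ((fun x => -x₀ + x) '' K) := hKc.translate _
  have h0 : (0 : R230.E n) ∈ interior ((fun x => -x₀ + x) '' K) := by
    have := (Homeomorph.addLeft (-x₀)).image_interior K
    simp only [Homeomorph.coe_addLeft] at this
    rw [← this]
    exact ⟨x₀, hx₀, by simp⟩
  obtain ⟨hγ, hb⟩ := R230.sub_gauge hK' hKc' h0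
  have hP := R230.petty hn hγ
  have hL := hγ.piB_spec.1
  rw [hb, R230.PiB_translate] at hL
  rw [hb, R230.PiB_translate, R230.vol_translate] at hP
  change volume (Metric.ball (0 : R230.E (n - 1)) 1) ^ n * volume K ^ (n - 1) ≤
      volume (R230.PiB K) * volume (Metric.ball (0 : R230.E n) 1) ^ (n - 2) ∧
    (volume (Metric.ball (0 : R230.E (n - 1)) 1) ^ n * volume K ^ (n - 1) =
      volume (R230.PiB K) * volume (Metric.ball (0 : R230.E n) 1) ^ (n - 2) ↔ _)
  have f1 : volume (Metric.ball (0 : R230.E (n - 1)) 1) ^ n * volume K ^ (n - 1) ≠ ∞ :=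
    ENNReal.mul_ne_top (ENNReal.pow_ne_top measure_ball_lt_top.ne)
      (ENNReal.pow_ne_top hK.measure_lt_top.ne)
  have f2 : volume (R230.PiB K) * volume (Metric.ball (0 : R230.E n) 1) ^ (n - 2) ≠ ∞ :=
    ENNReal.mul_ne_top hL.measure_lt_top.ne (ENNReal.pow_ne_top measure_ball_lt_top.ne)
  have e1 : (volume (Metric.ball (0 : R230.E (n - 1)) 1) ^ n * volume K ^ (n - 1)).toReal =
      R230.kap (n - 1) ^ n * R230.vol K ^ (n - 1) := by
    rw [ENNReal.toReal_mul, ENNReal.toReal_pow, ENNReal.toReal_pow]; rfl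
  have e2 : (volume (R230.PiB K) * volume (Metric.ball (0 : R230.E n) 1) ^ (n - 2)).toReal =
      R230.vol (R230.PiB K) * R230.kap n ^ (n - 2) := by
    rw [ENNReal.toReal_mul, ENNReal.toReal_pow]; rfl
  refine ⟨(ENNReal.toReal_le_toReal f1 f2).1 (by rw [e1, e2]; exact hP.1), fun he => ?_, ?_⟩
  · obtain ⟨a, T, hT⟩ := hP.2 (by rw [← e1, ← e2, he])
    refine ⟨x₀ + a, T, ?_⟩
    have : K = (fun x => x₀ + x) '' ((fun x => -x₀ + x) '' K) := by
      rw [Set.image_image]; simp
    rw [this, hT, Set.image_image]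
    simp only [add_assoc]
  · rintro ⟨a, T, hT⟩
    have hK2 : K = (fun x => a + x) '' (T.toContinuousLinearEquiv '' Metric.closedBall 0 1) := by
      rw [hT, Set.image_image]; rfl
    rw [← ENNReal.toReal_eq_toReal_iff' f1 f2, e1, e2]
    have hd := R230.adet_pos T.toContinuousLinearEquiv
    have h1 := R230.kap_pos n
    have h2 := R230.kap_pos (n - 1)
    have e3 : R230.vol (R230.PiB K) =
        R230.kap (n - 1) ^ n * R230.adet T.toContinuousLinearEquiv ^ (n - 1) * R230.kap n := by
      rw [hK2, R230.PiB_translate, R230.vol, R230.volume_piB_ell, ENNReal.toReal_ofReal (by positivity)]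
    have e4 : R230.vol K = R230.adet T.toContinuousLinearEquiv * R230.kap n := by
      rw [hK2, R230.vol_translate, R230.vol_image, R230.vol_closedBall _ zero_le_one, one_pow, one_mul]
    have e5 : R230.kap n ^ (n - 1) = R230.kap n * R230.kap n ^ (n - 2) := by
      rw [← pow_succ']; congr 1; omega
    rw [e3, e4, mul_pow, e5]
    ring

end Crest.Agent.S0354
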