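import Crest.Statements.S0358
import Crest.Agent.R232.Core
import Crest.Agent.R232.Discrete

set_option autoImplicit false
open MeasureTheory
open scoped ENNReal
universe u
open Crest Crest.GeometryTopology

namespace Crest.Agent.S0358

/-- Fix an exponent `1 < p < ∞` with `p ≠ 2` and a distortion `D > 1`, and put `γ = 2 - p` if `p < 2` and `γ = 1 - 2/p` if `p > 2`. There is a constant `C`, depending only on `p` and `D`, such that for every `n ≥ 2`, every `n` distinct points of any real `L^p` space can be mapped to points of the `d`-dimensional real `ℓ^p` space for some `d ≤ exp (C (log n)^γ)`, so that after a common rescaling by some `s > 0` all pairwise distances are preserved up to the factor `D`. -/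
theorem result
    (p : ℝ≥0∞) [Fact (1 ≤ p)] (hp1 : 1 < p) (hptop : p ≠ ⊤) (hp2 : p ≠ 2)
    (D : ℝ) (hD : 1 < D) :
    ∃ C : ℝ, ∀ (n : ℕ), 2 ≤ n →
      ∀ (α : Type u) [MeasurableSpace α] (μ : Measure α) (x : Fin n → Lp ℝ p μ),
        Function.Injective x →
        ∃ d : ℕ, (d : ℝ) ≤ Real.exp (C * Real.log n ^ (if p.toReal < 2 then 2 - p.toReal else 1 - 2 / p.toReal)) ∧
          ∃ (y : Fin n → PiLp p (fun _ : Fin d => ℝ)) (s : ℝ), 0 < s ∧
            ∀ i j, s * ‖x i - x j‖ ≤ ‖y i - y j‖ ∧ ‖y i - y j‖ ≤ D * s * ‖x i - x j‖ := by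
  classical
  have hq1 : 1 < p.toReal := by
    have := (ENNReal.toReal_lt_toReal ENNReal.one_ne_top hptop).2 hp1
    simpa using this
  have hq2 : p.toReal ≠ 2 := by
    intro h
    apply hp2
    rw [← ENNReal.ofReal_toReal hptop, h]; simp
  set q := p.toReal with hq
  have hq0 : 0 < q := by linarith
  set δ := min (D - 1) 1 with hδ
  have hδ0 : 0 < δ := lt_min (by linarith) one_pos
  have hδ1 : δ ≤ 1 := min_le_right _ _
  have hδD : 1 + δ ≤ D := by have := min_le_left (D - 1) 1; linarith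
  set τ := δ / 8 with hτ
  have hτ0 : 0 < τ := by positivity
  have hτ1 : τ ≤ 1 / 8 := by linarith
  have hτD : (1 + τ) * (1 + τ) ≤ D * ((1 - τ) * (1 - τ)) := by
    have h1 : (1 + δ) * ((1 - τ) * (1 - τ)) ≤ D * ((1 - τ) * (1 - τ)) :=
      mul_le_mul_of_nonneg_right hδD (mul_self_nonneg _)
    have h2 : δ = 8 * τ := by rw [hτ]; ring
    rw [h2] at h1
    have h3 : τ * τ ≤ τ * (1 / 8) := mul_le_mul_of_nonneg_left hτ1 hτ0.le
    have h4 : 0 ≤ τ * τ * τ := by positivity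
    linarith
  obtain ⟨C, hC⟩ := R232.core (p := q) (ε := τ / 5) hq1 hq2 (by positivity) (by linarith)
  refine ⟨C, fun n hn α _ μ x hx => ?_⟩
  -- the minimal distance
  obtain ⟨r0, hr0, hr⟩ : ∃ r0 : ℝ, 0 < r0 ∧ ∀ i j, i ≠ j → r0 ≤ ‖x i - x j‖ := by
    have hne : (Finset.univ.filter fun e : Fin n × Fin n => e.1 ≠ e.2).Nonempty :=
      ⟨(⟨0, by omega⟩, ⟨1, by omega⟩), by simp⟩
    obtain ⟨e, he, hmin⟩ := Finset.exists_min_image _ (fun e : Fin n × Fin n => ‖x e.1 - x e.2‖) hne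
    refine ⟨‖x e.1 - x e.2‖, ?_, fun i j hij => hmin (i, j) (by simpa using hij)⟩
    rw [norm_pos_iff, sub_ne_zero]
    exact fun h => (Finset.mem_filter.1 he).2 (hx h)
  obtain ⟨Ω, _, u, hu⟩ := R232.discretise μ hptop x (mul_pos hτ0 hr0)
  rw [← hq] at hu
  set t : Fin n × Fin n → ℝ := fun e => (∑ ω, |u ω e.1 - u ω e.2| ^ q) ^ (1 / q) with ht
  have hS0 : ∀ e : Fin n × Fin n, 0 ≤ ∑ ω, |u ω e.1 - u ω e.2| ^ q := fun e =>
    Finset.sum_nonneg fun ω _ => by positivity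
  have ht0 : ∀ e, 0 ≤ t e := fun e => Real.rpow_nonneg (hS0 e) _
  have htq : ∀ e, t e ^ q = ∑ ω, |u ω e.1 - u ω e.2| ^ q := fun e => by
    rw [ht]; beta_reduce
    rw [← Real.rpow_mul (hS0 e), one_div_mul_cancel hq0.ne', Real.rpow_one]
  have hgr : ∀ {ι : Type} [Fintype ι] (v : ι → Fin n → ℝ) (e : Fin n × Fin n),
      ∑ ω, |R232.grad (fun e => 1 / t e) (v ω) e| ^ q =
        (∑ ω, |v ω e.1 - v ω e.2| ^ q) / t e ^ q := by
    intro ι _ v e
    rw [Finset.sum_div]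
    refine Finset.sum_congr rfl fun ω _ => ?_
    rw [R232.grad, one_div, ← div_eq_inv_mul, abs_div, abs_of_nonneg (ht0 e),
      Real.div_rpow (abs_nonneg _) (ht0 e)]
  have htr : ∀ i j, i ≠ j → (1 - τ) * ‖x i - x j‖ ≤ t (i, j) ∧ t (i, j) ≤ (1 + τ) * ‖x i - x j‖ := by
    intro i j hij
    have h1 := abs_le.1 (hu i j)
    have h2 := mul_le_mul_of_nonneg_left (hr i j hij) hτ0.le
    simp only [ht]
    constructor <;> linarith [h1.1, h1.2]
  obtain ⟨d, hd, y, c, hc, hy⟩ := hC n hn Ω (fun e => 1 / t e) u fun e => by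
    rw [hgr, htq]; exact div_self_le_one _
  refine ⟨d, hd, fun i => WithLp.toLp p fun k => y k i, ((1 - τ) * c) ^ (1 / q) * (1 - τ),
    mul_pos (Real.rpow_pos_of_pos (mul_pos (by linarith) hc) _) (by linarith), fun i j => ?_⟩
  rcases eq_or_ne i j with rfl | hij
  · simp
  obtain ⟨h1, h2⟩ := htr i j hij
  have hrp : 0 < ‖x i - x j‖ := lt_of_lt_of_le hr0 (hr i j hij)
  have htp : 0 < t (i, j) := lt_of_lt_of_le (mul_pos (by linarith) hrp) h1
  have htq0 : 0 < t (i, j) ^ q := Real.rpow_pos_of_pos htp _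
  obtain ⟨h3, h4⟩ := hy (i, j) (by rw [hgr, ← htq, div_self htq0.ne'])
  rw [hgr, show 5 * (τ / 5) = τ by ring] at h3 h4
  rw [le_div_iff₀ htq0] at h3
  rw [div_le_iff₀ htq0] at h4
  have hN : ‖(WithLp.toLp p fun k => y k i : PiLp p (fun _ : Fin d => ℝ)) -
      WithLp.toLp p fun k => y k j‖ = (∑ k, |y k i - y k j| ^ q) ^ (1 / q) := by
    rw [PiLp.norm_eq_sum hq0]; rfl
  have hroot : ∀ a : ℝ, 0 ≤ a → (a * t (i, j) ^ q) ^ (1 / q) = a ^ (1 / q) * t (i, j) := by
    intro a ha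
    rw [Real.mul_rpow ha htq0.le, ← Real.rpow_mul htp.le, mul_one_div_cancel hq0.ne',
      Real.rpow_one]
  have ha : 0 < (1 - τ) * c := mul_pos (by linarith) hc
  have hb : 0 < (1 + τ) * c := mul_pos (by linarith) hc
  have hA : 0 < ((1 - τ) * c) ^ (1 / q) := Real.rpow_pos_of_pos ha _
  have h5 := Real.rpow_le_rpow (mul_pos ha htq0).le h3 (by positivity : 0 ≤ 1 / q)
  have h6 := Real.rpow_le_rpow (Finset.sum_nonneg fun k _ => by positivity) h4
    (by positivity : 0 ≤ 1 / q)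
  rw [hroot _ ha.le] at h5
  rw [hroot _ hb.le] at h6
  rw [hN]
  constructor
  · refine le_trans ?_ h5
    rw [mul_assoc]
    exact mul_le_mul_of_nonneg_left h1 hA.le
  · refine h6.trans ?_
    have h7 : ((1 + τ) * c) ^ (1 / q) ≤ (1 + τ) / (1 - τ) * ((1 - τ) * c) ^ (1 / q) := by
      have h8 : 0 < 1 - τ := by linarith
      have h9 : 1 ≤ (1 + τ) / (1 - τ) := by rw [le_div_iff₀ h8]; linarith
      have e : (1 + τ) * c = (1 + τ) / (1 - τ) * ((1 - τ) * c) := by field_simp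
      rw [e, Real.mul_rpow (by linarith) ha.le]
      refine mul_le_mul_of_nonneg_right ?_ hA.le
      have := Real.rpow_le_rpow_of_exponent_le h9 ((div_le_one hq0).2 hq1.le)
      rwa [Real.rpow_one] at this
    have h10 : (1 + τ) / (1 - τ) * (1 + τ) ≤ D * (1 - τ) := by
      rw [div_mul_eq_mul_div, div_le_iff₀ (by linarith)]; linarith
    calc ((1 + τ) * c) ^ (1 / q) * t (i, j)
        ≤ ((1 + τ) / (1 - τ) * ((1 - τ) * c) ^ (1 / q)) * ((1 + τ) * ‖x i - x j‖) :=
          mul_le_mul h7 h2 htp.le (le_trans (Real.rpow_nonneg hb.le _) h7)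
      _ = ((1 + τ) / (1 - τ) * (1 + τ)) * (((1 - τ) * c) ^ (1 / q) * ‖x i - x j‖) := by ring
      _ ≤ (D * (1 - τ)) * (((1 - τ) * c) ^ (1 / q) * ‖x i - x j‖) :=
          mul_le_mul_of_nonneg_right h10 (mul_pos hA hrp).le
      _ = _ := by ring

end Crest.Agent.S0358
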