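import Crest.Statements.S0359
import Crest.Agent.R232.Lower

set_option autoImplicit false
open MeasureTheory
open scoped ENNReal
open Crest Crest.GeometryTopology

namespace Crest.Agent.S0359

/-- Fix an exponent 1 < p < ∞ with p ≠ 2 and n ≥ 9. If d is a dimension such that every n distinct points of any real L^p space can be mapped to the d-dimensional real ℓ^p space with all pairwise distances multiplied by one common factor s > 0 (an isometric embedding up to scaling), then ⌊(n − 1)/4⌋² ≤ d. -/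
theorem result
    (p : ℝ≥0∞) [Fact (1 ≤ p)] (hp1 : 1 < p) (hptop : p ≠ ⊤) (hp2 : p ≠ 2)
    (n : ℕ) (hn : 9 ≤ n) (d : ℕ)
    (hd : ∀ (α : Type) [MeasurableSpace α] (μ : Measure α) (x : Fin n → Lp ℝ p μ),
      Function.Injective x →
      ∃ (y : Fin n → PiLp p (fun _ : Fin d => ℝ)) (s : ℝ), 0 < s ∧
        ∀ i j, ‖y i - y j‖ = s * ‖x i - x j‖) :
    ((n - 1) / 4) ^ 2 ≤ d := by
  classical
  have hq1 : 1 < p.toReal := by
    have := (ENNReal.toReal_lt_toReal ENNReal.one_ne_top hptop).2 hp1
    simpa using this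
  have hq2 : p.toReal ≠ 2 := by
    intro h
    apply hp2
    rw [← ENNReal.ofReal_toReal hptop, h]; simp
  have hp0 : p ≠ 0 := (lt_trans one_pos hp1).ne'
  have hq0 : 0 < p.toReal := by linarith
  set k := (n - 1) / 4 with hk
  have hk2 : 2 ≤ k := by omega
  obtain ⟨e⟩ : Nonempty (Option (Bool × Bool × Fin k) ↪ Fin n) :=
    Function.Embedding.nonempty_of_card_le (by simp; omega)
  set W : Fin n → Fin k × Fin k → ℝ :=
    Function.extend e R232.conf (fun m _ => (m : ℝ) + 2) with hW
  have hWe : ∀ t, W (e t) = R232.conf t := fun t => e.injective.extend_apply _ _ t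
  have hWn : ∀ m, (¬∃ t, e t = m) → W m = fun _ => (m : ℝ) + 2 := fun m hm =>
    Function.extend_apply' _ _ m hm
  have z0 : Fin k × Fin k := (⟨0, by omega⟩, ⟨0, by omega⟩)
  have hWinj : Function.Injective W := by
    intro m m' h
    by_cases h1 : ∃ t, e t = m <;> by_cases h2 : ∃ t, e t = m'
    · obtain ⟨t, rfl⟩ := h1
      obtain ⟨t', rfl⟩ := h2
      rw [hWe, hWe] at h
      rw [R232.conf_injective hk2 h]
    · obtain ⟨t, rfl⟩ := h1
      rw [hWe, hWn _ h2] at h
      have h3 := congrFun h z0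
      have h4 := R232.abs_conf_le t z0
      have : (0 : ℝ) ≤ (m' : ℕ) := Nat.cast_nonneg _
      linarith
    · obtain ⟨t, rfl⟩ := h2
      rw [hWe, hWn _ h1] at h
      have h3 := congrFun h z0
      have h4 := R232.abs_conf_le t z0
      have : (0 : ℝ) ≤ (m : ℕ) := Nat.cast_nonneg _
      linarith
    · rw [hWn _ h1, hWn _ h2] at h
      have h3 := congrFun h z0
      exact Fin.ext (by exact_mod_cast add_right_cancel h3)
  have hmem : ∀ f : Fin k × Fin k → ℝ, MemLp f p Measure.count := fun f => MemLp.of_discrete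
  have hnorm : ∀ m m', ‖(hmem (W m)).toLp _ - (hmem (W m')).toLp _‖ =
      (∑ z, |W m z - W m' z| ^ p.toReal) ^ (1 / p.toReal) := by
    intro m m'
    rw [← MemLp.toLp_sub, Lp.norm_toLp, R232.norm_count hp0 hptop]; rfl
  obtain ⟨y, s, hs, hy⟩ := hd (Fin k × Fin k) Measure.count (fun m => (hmem (W m)).toLp _) (by
    intro m m' h
    apply hWinj
    have h1 := (MemLp.toLp_eq_toLp_iff _ _).1 h
    funext z
    exact Measure.ae_count_iff.1 h1 z)
  refine R232.sq_le_of_conf hq1 hq2 (Real.rpow_pos_of_pos hs p.toReal) (fun t a => y (e t) a)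
    fun t t' => ?_
  have h1 := hy (e t) (e t')
  rw [hnorm, PiLp.norm_eq_sum hq0, hWe, hWe] at h1
  have h2 := congrArg (fun x : ℝ => x ^ p.toReal) h1
  have hA : 0 ≤ ∑ a, ‖(y (e t) - y (e t')) a‖ ^ p.toReal :=
    Finset.sum_nonneg fun a _ => by positivity
  have hB : 0 ≤ ∑ z, |R232.conf t z - R232.conf t' z| ^ p.toReal :=
    Finset.sum_nonneg fun a _ => by positivity
  rw [Real.mul_rpow hs.le (Real.rpow_nonneg hB _), ← Real.rpow_mul hA, ← Real.rpow_mul hB,
    one_div_mul_cancel hq0.ne', Real.rpow_one, Real.rpow_one] at h2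
  exact h2

end Crest.Agent.S0359
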