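import Crest.Statements.S0431
import Crest.Agent.R286.Correct

set_option autoImplicit false
open Crest.Enc Crest.Sched3
open Crest Crest.LogicCS

namespace Crest.Agent.R286

open Crest.Agent.Lib.PT Finset Classical

theorem getD_flatten {n : ℕ} (L : List (List Bool)) (h : ∀ x ∈ L, x.length = n) {v : ℕ}
    (hv : v < n) : ∀ u, L.flatten.getD (u * n + v) false = (L.getD u []).getD v false := by
  induction L with
  | nil => simp
  | cons x L ih =>
    have h1 := h x (by simp)
    rintro (_ | u)
    · simp only [List.flatten_cons, zero_mul, zero_add, List.getD_cons_zero]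
      exact List.getD_append _ _ _ _ (by omega)
    · rw [List.flatten_cons, List.getD_append_right _ _ _ _ (by rw [Nat.succ_mul]; omega),
        List.getD_cons_succ, ← ih (fun y hy => h y (by simp [hy])) u]
      congr 1; rw [Nat.succ_mul]; omega

variable {n : ℕ} (E : Fin n → Fin n → Bool)

theorem length_tbl :
    ((List.finRange n).map fun u => (List.finRange n).map fun v => E u v).flatten.length = n * n := by
  simp [List.length_flatten, Function.comp_def]

theorem nn_precCode : nn (precCode n E).reverse = n := by
  have h : (precCode n E).reverse.length = n * n + 2 * n.size + 2 := by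
    rw [List.length_reverse, precCode, List.length_append, length_tbl, length_natCode]; omega
  obtain ⟨h1, h2⟩ := Fnd_spec (n := (precCode n E).reverse.length + 1) (i := n)
    (q := fun m => m * m + 2 * m.size + 2 = (precCode n E).reverse.length)
    (by have := Nat.le_mul_self n; omega) h.symm
  refine le_antisymm h1 (not_lt.1 fun h3 => ?_)
  have := Nat.mul_self_lt_mul_self h3
  have := Nat.size_le_size h3.le
  unfold nn at *
  omega

theorem ed_precCode (u v : Fin n) : ed n (precCode n E).reverse u v ↔ E u v = true := by
  have h1 : u * n + v < n * n := by have := u.2; have := v.2; nlinarith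
  have h2 := length_tbl E
  rw [ed, precCode, List.reverse_append, List.getD_append _ _ _ _ (by simp only [List.length_reverse]; omega),
    List.getD_reverse _ (by omega), h2, show n * n - 1 - (n * n - 1 - (u * n + v)) = u * n + v by omega,
    getD_flatten _ (by simp) v.2]
  simp

theorem closure_spec (hE : Acyclic E) {B : ℕ} (hB : n * n + n ≤ B) (u v : Fin n) :
    LT n (tab (fun T => F1 n T (precCode n E).reverse) B B) u v ↔
      Relation.TransGen (fun u w => E u w = true) u v := by
  have step : ∀ i (u v : Fin n), LT n (tab (fun T => F1 n T (precCode n E).reverse) B (i + 1)) u v ↔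
      E u v = true ∨ ∃ w, LT n (tab (fun T => F1 n T (precCode n E).reverse) B i) u w ∧
        E w v = true := fun i u v => by
    have h1 : u * n + v < n * n := by have := u.2; have := v.2; nlinarith
    have h2 : (u * n + v) / n = u := by
      rw [add_comm, Nat.add_mul_div_right _ _ u.pos, Nat.div_eq_of_lt v.2, zero_add]
    have h3 : (u * n + v) % n = v := by simp [Nat.mod_eq_of_lt v.2]
    rw [LT, tc, getD_tab _ _ (by omega), F1, h2, h3, ed_precCode]
    simp only [u.2, v.2, true_and, Bex, ← ed_precCode, LT]
    exact or_congr_right ⟨fun ⟨w, hw, h⟩ => ⟨⟨w, hw⟩, h⟩, fun ⟨w, h⟩ => ⟨w, w.2, h⟩⟩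
  constructor
  · generalize hi : B = i
    nth_rewrite 1 [← hi]
    clear hi
    induction i generalizing v with
    | zero => intro h; have := h.2.2; rw [tab_zero] at this; cases this
    | succ i ih =>
      rw [step]
      rintro (h | ⟨w, h, h'⟩)
      · exact .single h
      · exact (ih w h).tail h'
  · have : ∀ i (v : Fin n),
        (univ.filter fun w => Relation.TransGen (fun u w => E u w = true) w v).card ≤ i →
        Relation.TransGen (fun u w => E u w = true) u v →
        LT n (tab (fun T => F1 n T (precCode n E).reverse) B i) u v := by
      intro i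
      induction i with
      | zero => exact fun v h h' => absurd (card_pos.2 ⟨u, mem_filter.2 ⟨mem_univ u, h'⟩⟩) h.not_gt
      | succ i ih =>
        intro v h h'
        rw [step]
        cases h' with
        | single h => exact Or.inl h
        | @tail w _ h1 h2 =>
          refine Or.inr ⟨w, ih w (Nat.le_of_lt_succ (lt_of_lt_of_le (card_lt_card ⟨fun x hx => ?_,
            fun hs => hE w ?_⟩) h)) h1, h2⟩
          · exact mem_filter.2 ⟨mem_univ _, (mem_filter.1 hx).2.tail h2⟩
          · exact (mem_filter.1 (hs (mem_filter.2 ⟨mem_univ w, .single h2⟩))).2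
    exact this B v ((card_filter_le _ _).trans (by simp; omega))

end Crest.Agent.R286

namespace Crest.Agent.S0431

/-- There is a map on bit strings, computable by a multi-stack machine within C·(L+2)^150020 + C steps on every input of length L for some constant C, which, given the code of any acyclic precedence table on n ≥ 1 unit-length jobs, returns the code of a feasible schedule on three identical machines (slots numbered from 1, at most three jobs per slot, a job constrained to precede another in a strictly earlier slot) whose largest slot is as small as that of any feasible schedule. -/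
theorem result :
    ∃ f : List Bool → List Bool,
      (∃ C : ℕ, Crest.DTime.TimeBound f (fun L => C * (L + 2) ^ 150020 + C)) ∧
      ∀ (n : ℕ) (E : Fin n → Fin n → Bool), 1 ≤ n → Acyclic E →
        ∃ τ : Fin n → ℕ, f (precCode n E) = listCode (List.ofFn τ) ∧ IsSchedule E τ ∧
          ∀ τ' : Fin n → ℕ, IsSchedule E τ' → Finset.univ.sup τ ≤ Finset.univ.sup τ' := by
  refine ⟨fun x => R286.alg x.reverse, R286.alg_ft.timeBound (by omega), fun n E hn hE => ?_⟩
  have h := R286.closure_spec E hE (B := n * n + n + 2) (by omega)
  obtain ⟨τ, e, h1, h2, h3⟩ := R286.alg3_spec le_rfl hn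
    (fun u v w a b => (h _ _).2 (((h _ _).1 a).trans ((h _ _).1 b))) fun v a => hE v ((h _ _).1 a)
  refine ⟨τ, ?_, ⟨fun v => (h2.bd v (by simp)).1, h2.cap, fun u v a =>
    h2.prec u (by simp) v (by simp) ((h _ _).2 (.single a))⟩, fun τ' h' => ?_⟩
  · simpa only [R286.alg, R286.nn_precCode, R286.alg2] using h1
  · refine (Finset.sup_le fun v hv => (h2.bd v hv).2).trans (h3 τ' _
      ⟨fun v hv => ⟨h'.1 v, Finset.le_sup hv⟩, h'.2.1, fun u _ v _ a => ?_⟩)
    have := (h _ _).1 a
    clear a
    induction this with
    | single a => exact h'.2.2 _ _ a
    | tail _ a ih => exact (ih (by simp)).trans (h'.2.2 _ _ a)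

end Crest.Agent.S0431
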