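import Crest.Statements.S0440
import Crest.Agent.R291.Main

set_option autoImplicit false
open Crest.Depth3
open Crest Crest.LogicCS

namespace Crest.Agent.S0440

/-- There is a set of bit strings decidable in polynomial time whose restriction to each input length n needs OR-AND-OR circuits (unbounded fan-in, free input negations, all gates counted) of size more than 2^(A·√n): for every real A > 0 and all sufficiently large n, every such depth-three circuit that accepts exactly the length-n members of the set has more than 2^(A·√n) gates. -/
theorem result :
    ∃ L : Set (List Bool), Crest.Complexity.InP L ∧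
      ∀ A : ℝ, 0 < A → ∃ N : ℕ, ∀ n ≥ N, ∀ c : Circuit n,
        (∀ x : Fin n → Bool, c.eval x ↔ List.ofFn x ∈ L) →
          (2 : ℝ) ^ (A * Real.sqrt n) < (c.size : ℝ) :=
  ⟨Crest.Agent.R291.Lang, Crest.Agent.R291.lang_inP, Crest.Agent.R291.main⟩

end Crest.Agent.S0440
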