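import Crest.Statements.S0454
import Crest.Agent.R300.LFinal

set_option autoImplicit false
open Crest.FinProb Crest.TraceRecon
open Crest Crest.LogicCS

namespace Crest.Agent.S0454

/-- Fix a success level s in (0, 1] and 0 < c < 1/(4 log 2). There are N₀ and R such that for every length n ≥ N₀ and deletion probability q in (0, 1) with q³·log n ≥ R, no reconstruction rule (randomized, computationally unrestricted) that sees fewer than n^(c·log(q³ log n)) independent deletion traces returns every binary word of length n with probability at least s: for each such rule some word is returned with probability below s. Logarithms are natural. -/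
theorem result (s : ℝ) (hs : 0 < s) (hs1 : s ≤ 1)
    (c : ℝ) (hc : 0 < c) (hc' : c < 1 / (4 * Real.log 2)) :
    ∃ (N₀ : ℕ) (R : ℝ), ∀ n ≥ N₀, ∀ q : ℝ, 0 < q → q < 1 → R ≤ q ^ 3 * Real.log n →
      ∀ m : ℕ, (m : ℝ) < (n : ℝ) ^ (c * Real.log (q ^ 3 * Real.log n)) →
        ∀ K : (Fin m → List Bool) → (Fin n → Bool) → ℝ, IsRule K →
          ∃ x : Fin n → Bool, successProb (1 - q) K x < s :=
  Crest.Agent.R300.final_0454 s hs hs1 c hc hc'

end Crest.Agent.S0454
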