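import Crest.Statements.S0455
import Crest.Agent.R300.LFinal

set_option autoImplicit false
open Crest.FinProb Crest.TraceRecon
open Crest Crest.LogicCS

namespace Crest.Agent.S0455

/-- Fix a deletion probability q in (0, 1) (each bit is deleted independently with probability q, retained with probability 1 − q). For every exponent A > 0 and every ε > 0 there is N₀ such that for every length n ≥ N₀ some two distinct binary words of length n have single-trace laws at total variation distance less than ε · n^(−A). Equivalently, n^A times the least total variation distance between the one-trace laws of two distinct words of length n tends to 0 for every A. -/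
theorem result (q : ℝ) (hq : 0 < q) (hq1 : q < 1) (A : ℝ)
    (hA : 0 < A) (ε : ℝ) (hε : 0 < ε) :
    ∃ N₀ : ℕ, ∀ n ≥ N₀, ∃ x y : Fin n → Bool, x ≠ y ∧
      (n : ℝ) ^ A * traceTV (1 - q) x y < ε :=
  Crest.Agent.R300.final_0455 q hq hq1 A hA ε hε

end Crest.Agent.S0455
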