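import Crest.Statements.S0457
import Crest.Agent.R300.UFinal

set_option autoImplicit false
open Crest.FinProb Crest.Randomized Crest.TraceRecon
open Crest Crest.LogicCS

namespace Crest.Agent.S0457

/-- For some absolute constant C ≥ 1, one randomized algorithm, polynomial-time in the length of input plus random tape, does this for every n ≥ 2, every rational retention probability 0 < p < 1 and every binary word x of length n: fed the binary codes of n and p and m = ⌈exp(C·p⁻¹·(log n)·X²·(1 + log X)⁶)⌉ independent deletion traces of x, where X = 1 + log n/(1 + log(1/(1 − p))), its output reads as x with probability at least 2/3 over the traces and its tape. Natural logarithms. -/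
theorem result :
    ∃ C : ℝ, 1 ≤ C ∧ ∃ (A : List Bool × List Bool → List Bool) (r : Polynomial ℕ), RandPolyTime A ∧
      ∀ n : ℕ, 2 ≤ n → ∀ p : ℚ, 0 < p → p < 1 → ∀ x : Fin n → Bool,
        2 / 3 ≤ decoderSuccessProb (traceBudget C n p) p A r x :=
  Crest.Agent.R300.final_0457

end Crest.Agent.S0457
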