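import Crest.Statements.S0464
import Crest.Agent.R304.Fin

set_option autoImplicit false
open Crest.Enc Crest.FinProb Crest.Randomized Crest.Matchings
open Crest Crest.LogicCS

namespace Crest.Agent.S0464

/-- A randomized polynomial-time approximation scheme counts perfect matchings of simple graphs: one algorithm and one polynomial r such that, on the code of a graph, of rationals 0 < ε < 1, 0 < δ < 1/2 and a unary block of length ⌈1/ε⌉, run with r(input length) fair random bits, every tape yields the code of a nonnegative rational, which with probability at least 1 − δ is within a factor 1 ± ε of the number of perfect matchings, and which is 0 on every tape when there is no perfect matching. -/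
theorem result :
    ∃ (A : List Bool × List Bool → List Bool) (r : Polynomial ℕ), RandPolyTime A ∧
      ∀ (n : ℕ) (G : SimpleGraph (Fin n)) [DecidableRel G.Adj] (ε δ : ℚ),
        0 < ε → ε < 1 → 0 < δ → δ < 1 / 2 →
        (∀ ω : Fin (r.eval (graphCode n G ++ ratCode ε ++ ratCode δ ++ List.replicate ⌈ε⁻¹⌉₊ true).length) → Bool,
          ∃ z : ℚ, 0 ≤ z ∧ A (graphCode n G ++ ratCode ε ++ ratCode δ ++ List.replicate ⌈ε⁻¹⌉₊ true, List.ofFn ω) = ratCode z) ∧
        (numPerfectMatchings G = 0 →
          ∀ ω : Fin (r.eval (graphCode n G ++ ratCode ε ++ ratCode δ ++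
              List.replicate ⌈ε⁻¹⌉₊ true).length) → Bool,
            A (graphCode n G ++ ratCode ε ++ ratCode δ ++ List.replicate ⌈ε⁻¹⌉₊ true,
              List.ofFn ω) = ratCode 0) ∧
        1 - (δ : ℝ) ≤ uniformProb {ω : Fin (r.eval (graphCode n G ++ ratCode ε ++ ratCode δ ++
              List.replicate ⌈ε⁻¹⌉₊ true).length) → Bool |
            ∃ z : ℚ, A (graphCode n G ++ ratCode ε ++ ratCode δ ++ List.replicate ⌈ε⁻¹⌉₊ true,
              List.ofFn ω) = ratCode z ∧
              (1 - ε) * numPerfectMatchings G ≤ z ∧ z ≤ (1 + ε) * numPerfectMatchings G} := by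
  exact Crest.Agent.R304.fpras

end Crest.Agent.S0464
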