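import Crest.Statements.S0465
import Crest.Agent.R304.BEnt

set_option autoImplicit false
open Crest.Matchings
open Crest Crest.LogicCS

namespace Crest.Agent.S0465

/-- In a loopless multigraph on 2m ≥ 2 vertices (parallel edges distinguished), take any probability law on perfect matchings and let x_e be its edge marginals. Then some law on perfect matchings with the same marginals has Shannon entropy (natural units) at least Σ_e (−x_e log x_e) − (2 − 2/m)·Σ_e (−(1 − x_e) log(1 − x_e)). -/
theorem result (m : ℕ) (hm : 1 ≤ m) (k : ℕ)
    (ends : Fin k → Fin (2 * m) × Fin (2 * m)) (hends : ∀ e, (ends e).1 ≠ (ends e).2)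
    (p : Finset (Fin k) → ℝ) (hp : IsMatchingLaw ends p) :
    ∃ q : Finset (Fin k) → ℝ, IsMatchingLaw ends q ∧ (∀ e, marginal q e = marginal p e) ∧
      ∑ e, Real.negMulLog (marginal p e) - (2 - 2 / (m : ℝ)) * ∑ e, Real.negMulLog (1 - marginal p e)
        ≤ lawEntropy q := by
  exact Crest.Agent.R304.entropy_bound m hm k ends hends p hp

end Crest.Agent.S0465
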