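import Crest.Statements.S0471
import Crest.Agent.R307.HNz
import Crest.Agent.R307.WinLG
import Crest.Agent.R307.WinM
import Crest.Agent.R307.WinB
import Crest.Agent.R307.WinL

set_option autoImplicit false
open Crest.CubeNoise
open Crest Crest.LogicCS

namespace Crest.Agent.S0471

/-- Let n ≥ 1, let f be a Boolean function on the n-dimensional cube, read with values +1 and -1 and with mean m under the uniform law, and let ρ be a real of absolute value at most 1. Then √(1 - m²) minus the average over cube points x of √(1 - (T f)(x)²), where T is the noise operator with correlation ρ, is at most 1 - √(1 - ρ²). -/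
theorem result (n : ℕ) (hn : 1 ≤ n) (f : (Fin n → Bool) → Bool)
    (ρ : ℝ) (hρ : |ρ| ≤ 1) :
    Real.sqrt (1 - (cubeAverage (fun x => spin (f x))) ^ 2)
        - cubeAverage (fun x => Real.sqrt (1 - (noise ρ (fun y => spin (f y)) x) ^ 2))
      ≤ 1 - Real.sqrt (1 - ρ ^ 2) := by
  refine Crest.Agent.R307.hell_of (fun r h0 h1 => ?_) n f ρ hρ
  rcases le_total r (3 / 10) with a | a
  · exact Crest.Agent.R307.hn_core h0 a
  rcases le_total r (66 / 100) with b | b
  · exact Crest.Agent.R307.win_LG a b
  rcases le_total r (4 / 5) with c | c
  · exact Crest.Agent.R307.win_M b c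
  rcases le_total r (87 / 100) with d | d
  · exact Crest.Agent.R307.win_B c d
  · exact Crest.Agent.R307.win_L d h1

end Crest.Agent.S0471
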