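import Crest.Statements.S0482
import Crest.Agent.R310.Bridge
import Crest.Agent.R310.Rnd
import Crest.Agent.R310.LS
import Crest.Agent.R310.Proc
import Crest.Agent.R310.Cert

set_option autoImplicit false
open Crest.LogicCS.KMedian
open Crest Crest.LogicCS

namespace Crest.Agent.S0482

/-- For every ε > 0 some polynomial-time map on bit strings sends the code of any valid metric k-median instance (rational metric on n points, client and facility subsets, budget 1 ≤ k ≤ number of facilities) to a nonempty set of at most k facilities costing at most 1+2/e+ε times any such set. Cost = sum over clients of the distance to the nearest opened point; instances enter through the binary encoding Instance.encode and the output is read as a membership mask. -/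
theorem result (ε : ℝ) (hε : 0 < ε) :
    ∃ f : List Bool → List Bool, Crest.Complexity.PolyTime f ∧
      ∀ I : Instance, I.Valid →
        I.opened f ⊆ I.facilities ∧ (I.opened f).Nonempty ∧ (I.opened f).card ≤ I.k ∧
        ∀ S : Finset (Fin I.N), S ⊆ I.facilities → S.Nonempty → S.card ≤ I.k →
          (I.cost (I.opened f) : ℝ) ≤ (1 + 2 / Real.exp 1 + ε) * (I.cost S : ℝ) := by
  have h1 : Real.exp 1 < 2.7182818286 := Real.exp_one_lt_d9
  have h2 : 2.7182818283 < Real.exp 1 := Real.exp_one_gt_d9
  have h3 : 2 / Real.exp 1 ≤ 3 / 4 := by rw [div_le_iff₀ (by positivity)]; linarith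
  have h4 : 2 / 3 ≤ 2 / Real.exp 1 := by rw [le_div_iff₀ (by positivity)]; linarith
  set e := min ε 1 / 4 with he
  have he0 : 0 < e := by positivity
  have he1 : e ≤ 1 / 4 := by have := min_le_right ε 1; linarith
  have he2 : 4 * e ≤ ε := by have := min_le_left ε 1; linarith
  obtain ⟨P⟩ := R310.exists_pot he0
  obtain ⟨c, A, hA, h⟩ := R310.proc P (by linarith) (by linarith) he0
  obtain ⟨B, hB, h⟩ := R310.rnd hA h (by linarith) he0
  obtain ⟨B', hB', h⟩ := R310.ls hB h (by linarith) he0
  obtain ⟨f, hf, h⟩ := R310.bridge hB' h
  refine ⟨f, hf, fun I hI => ⟨(h I hI).1, (h I hI).2.1, (h I hI).2.2.1, fun S h1 h2 h3 => ?_⟩⟩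
  refine ((h I hI).2.2.2 S h1 h2 h3).trans (mul_le_mul_of_nonneg_right (by linarith) ?_)
  exact R310.cost_nonneg' hI S

end Crest.Agent.S0482
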