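import Crest.Statements.S0501
import Crest.Agent.R324.Assemble

set_option autoImplicit false
open Crest Crest.LogicCS

namespace Crest.Agent.S0501

/-- For some constant C and threshold N₀ and every n ≥ N₀, some exact complex linear circuit (each gate adds or subtracts two available values or multiplies one by an arbitrary fixed complex scalar; the inputs and the constant 0 are available at the start; every gate counts one) computes the unnormalized discrete Fourier transform of order n on every complex input vector with at most C · n · (log n)^θ · (log log n)^(4 − θ) gates, where θ = log_m (m − Δ/2^71), m = 10^6, Δ = 6871402692000000. -/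
theorem result :
    ∃ C : ℝ, ∃ N₀ : ℕ, ∀ n ≥ N₀, ∃ P : Crest.FourierCircuit.LinCircuit n,
      P.Computes (Crest.FourierCircuit.dftMatrix n) ∧
        (P.size : ℝ) ≤ C * n * Real.log n ^ Crest.FourierCircuit.savingExponent *
          Real.log (Real.log n) ^ (4 - Crest.FourierCircuit.savingExponent) := by
  obtain ⟨C, hC0, hC⟩ := R324.PP.final (V := (ℕ → ℂ) → ℂ)
  have hθ0 : 0 ≤ FourierCircuit.savingExponent := Real.logb_nonneg (by norm_num) (by norm_num)
  have hθ1 : FourierCircuit.savingExponent ≤ 1 := by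
    rw [FourierCircuit.savingExponent, Real.logb_le_iff_le_rpow (by norm_num) (by norm_num)]
    norm_num
  generalize FourierCircuit.savingExponent = θ at hC hθ0 hθ1 ⊢
  refine ⟨1 + 16 * (28 * (2000 * (2 * C + 1) + 1) + 2), ⌈Real.exp 16⌉₊, fun n hn => ?_⟩
  have hn' : Real.exp 16 ≤ n := (Nat.ceil_le.1 hn)
  have hn0 : (0 : ℝ) < n := (Real.exp_pos _).trans_le hn'
  have hn1 : 1 ≤ n := by exact_mod_cast hn0
  have hL : 16 ≤ Real.log n := (Real.le_log_iff_exp_le hn0).2 hn'
  have hlog2 : (2 / 3 : ℝ) ≤ Real.log 2 := by have := Real.log_two_gt_d9; linarith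
  have hlog2' : Real.log 2 ≤ 1 := by have := Real.log_two_lt_d9; linarith
  have hnat : ∀ q : ℕ, q ≠ 0 → (Nat.log 2 q : ℝ) ≤ 3 / 2 * Real.log q := by
    intro q hq
    have h1 : ((2 ^ Nat.log 2 q : ℕ) : ℝ) ≤ q := by exact_mod_cast Nat.pow_log_le_self 2 hq
    have h2 := Real.log_le_log (by positivity) h1
    rw [Nat.cast_pow, Real.log_pow] at h2
    have : (0 : ℝ) ≤ Nat.log 2 q := Nat.cast_nonneg _
    norm_num at h2
    nlinarith
  set L := Real.log n with hLdef
  have hLL : 1 ≤ Real.log L := by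
    rw [Real.le_log_iff_exp_le (by linarith)]
    have := Real.exp_one_lt_d9
    linarith
  obtain ⟨S, h6, hcop, hS1, hS2, hS3⟩ := R324.exists_coprime_factors n hn1
  have hT : ((Nat.log 2 (30 * n) + 5 : ℕ) : ℝ) ≤ L ^ 2 := by
    have h1 := hnat (30 * n) (by omega)
    have h2 : Real.log ((30 * n : ℕ) : ℝ) ≤ 5 * Real.log 2 + L := by
      rw [Nat.cast_mul, Real.log_mul (by norm_num) hn0.ne']
      have : Real.log ((30 : ℕ) : ℝ) ≤ Real.log (2 ^ 5) :=
        Real.log_le_log (by norm_num) (by norm_num)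
      rw [Real.log_pow] at this
      norm_num at this ⊢
      linarith
    push_cast
    nlinarith
  set T := 16 * (Nat.log 2 (30 * n) + 5) ^ 2 with hTdef
  have hT' : (T : ℝ) ≤ L ^ 5 := by
    have h1 : (T : ℝ) = 16 * ((Nat.log 2 (30 * n) + 5 : ℕ) : ℝ) ^ 2 := by
      rw [hTdef]; push_cast; ring
    have h2 : ((Nat.log 2 (30 * n) + 5 : ℕ) : ℝ) ^ 2 ≤ (L ^ 2) ^ 2 := by gcongr
    have h3 : L ^ 5 = L * (L ^ 2) ^ 2 := by ring
    rw [h1, h3]
    gcongr
  have hT0 : T ≠ 0 := by positivity
  set K := 144 * (Nat.log 2 T + 2) + 216 with hKdef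
  have hK : (K : ℝ) ≤ 2000 * Real.log L := by
    have h1 := hnat T hT0
    have h2 : Real.log T ≤ 5 * Real.log L := by
      have := Real.log_le_log (by positivity) hT'
      rwa [Real.log_pow] at this
    rw [hKdef]
    push_cast
    linarith
  have hcard : (S.card : ℝ) + 1 ≤ 2 * L := by
    have h1 : 2 ^ S.card ≤ 16 * n :=
      (Finset.pow_card_le_prod _ _ _ fun q hq => by have := h6 q hq; omega).trans hS2
    have h2 : S.card ≤ Nat.log 2 (16 * n) := Nat.le_log_of_pow_le (by norm_num) h1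
    have h3 := hnat (16 * n) (by omega)
    have h4 : Real.log ((16 * n : ℕ) : ℝ) = 4 * Real.log 2 + L := by
      rw [Nat.cast_mul, Real.log_mul (by norm_num) hn0.ne',
        show ((16 : ℕ) : ℝ) = 2 ^ 4 by norm_num, Real.log_pow, hLdef]
      norm_num
    have h5 : (S.card : ℝ) ≤ Nat.log 2 (16 * n) := by exact_mod_cast h2
    linarith
  have hLθ : 1 ≤ L ^ θ := Real.one_le_rpow (by linarith) hθ0
  have hc : ((S.card : ℝ) + 1) ^ θ ≤ 2 * L ^ θ := by
    calc _ ≤ (2 * L) ^ θ := Real.rpow_le_rpow (by positivity) hcard hθ0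
      _ = 2 ^ θ * L ^ θ := Real.mul_rpow (by norm_num) (by linarith)
      _ ≤ 2 * L ^ θ := by
        gcongr
        simpa using Real.rpow_le_rpow_of_exponent_le (x := 2) (by norm_num) hθ1
  have hcost := R324.cost_dft (V := (ℕ → ℂ) → ℂ) n S h6 hcop hS1 K
    (fun q hq => by
      have := Nat.log_mono_right (b := 2) (hS3 q hq)
      omega) (C * (2 * L ^ θ)) (by positivity)
    (fun l hl => (hC l).mono (by
      refine mul_le_mul_of_nonneg_left (le_trans ?_ hc) hC0
      refine Real.rpow_le_rpow (by positivity) ?_ hθ0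
      have : (l : ℝ) ≤ S.card := by exact_mod_cast hl
      linarith))
    (Complex.exp_ne_zero (2 * Real.pi * Complex.I / n))
  obtain ⟨P, hP, hsize⟩ := R324.exists_circuit (FourierCircuit.dftMatrix n) _ hcost
  refine ⟨P, hP, hsize.trans ?_⟩
  have hM : Real.log L ≤ Real.log L ^ (4 - θ) := by
    simpa using Real.rpow_le_rpow_of_exponent_le hLL (show (1 : ℝ) ≤ 4 - θ by linarith)
  have hN : ((∏ q ∈ S, q : ℕ) : ℝ) ≤ 16 * n := by exact_mod_cast hS2
  generalize ((∏ q ∈ S, q : ℕ) : ℝ) = N at hN ⊢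
  generalize Real.log L ^ (4 - θ) = M at hM ⊢
  generalize L ^ θ = P at hLθ ⊢
  have hM1 : 1 ≤ M := hLL.trans hM
  have hK' : (K : ℝ) ≤ 2000 * M := by linarith
  have hK0 : (0 : ℝ) ≤ K := Nat.cast_nonneg _
  generalize (K : ℝ) = k at hK' hK0 ⊢
  have hP0 : 0 ≤ P := by linarith
  have hM0 : 0 ≤ M := by linarith
  clear * - hC0 hn0 hN hM1 hK' hK0 hP0 hM0 hLθ
  have hPM : 1 ≤ P * M := one_le_mul_of_one_le_of_one_le hLθ hM1
  have h1 : k * (C * (2 * P) + 1) ≤ 2000 * M * ((2 * C + 1) * P) := by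
    refine mul_le_mul (by linarith) (by nlinarith) (by positivity) (by positivity)
  have h2 : 28 * (k * (C * (2 * P) + 1) + 1) + 2 ≤
      (28 * (2000 * (2 * C + 1) + 1) + 2) * (P * M) := by nlinarith
  have h3 : (28 * (k * (C * (2 * P) + 1) + 1) + 2) * N ≤
      (28 * (2000 * (2 * C + 1) + 1) + 2) * (P * M) * (16 * n) :=
    (mul_le_mul_of_nonneg_left hN (by positivity)).trans
      (mul_le_mul_of_nonneg_right h2 (by positivity))
  have h4 : (n : ℝ) * 1 ≤ n * (P * M) := mul_le_mul_of_nonneg_left hPM hn0.le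
  nlinarith

end Crest.Agent.S0501
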