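import Crest.Statements.S0504
import Crest.Agent.R327.Circuit
import Crest.Agent.R327.Lower
import Crest.Agent.R327.Numerics

set_option autoImplicit false
universe u v
open Crest Crest.LogicCS

namespace Crest.Agent.S0504

open Crest.Agent.R327

/-- There is an absolute threshold n₀ such that, for every n ≥ n₀, every field K of characteristic zero, and every syntactically homogeneous depth-five sum-product circuit over K in the n³ matrix-entry variables (gates may be shared; fan-in is unrestricted; a bottom sum may read any number of leaves) whose output is the top-left entry of the ordered product of the n variable matrices of order n, the number of vertices of the circuit, leaves included, is at least n^(√n/400). -/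
theorem result :
    ∃ n₀ : ℕ, ∀ n ≥ n₀, ∀ (K : Type u) [Field K] [CharZero K]
      (L B P S R : Type v) [Fintype L] [Fintype B] [Fintype P] [Fintype S] [Fintype R]
      (C : Crest.ArithCircuit.SPSPS K (Fin n × Fin n × Fin n) L B P S R),
      C.IsHomogeneous → C.output = Crest.ArithCircuit.imm K n →
        (n : ℝ) ^ (Real.sqrt n / 400) ≤ (C.size : ℝ) := by
  classical
  refine ⟨⌈Real.exp 1000⌉₊ * ⌈Real.exp 1000⌉₊, ?_⟩
  intro n hn K _ _ L B P S R _ _ _ _ _ C hC hout
  -- parameters
  set t := Nat.sqrt n with ht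
  have ht1 : ⌈Real.exp 1000⌉₊ ≤ t := Nat.le_sqrt.mpr hn
  have ht2 : Real.exp 1000 ≤ t := (Nat.le_ceil _).trans (by exact_mod_cast ht1)
  have ht0 : (0 : ℝ) < t := (Real.exp_pos _).trans_le ht2
  have htpos : 1 ≤ t := by exact_mod_cast ht0
  have hA : 1000 ≤ Real.log t := (Real.le_log_iff_exp_le ht0).mpr ht2
  have htn : t * t ≤ n := Nat.sqrt_le n
  have hnt : n < (t + 1) * (t + 1) := Nat.lt_succ_sqrt n
  have hn1 : 1 ≤ n := le_trans (Nat.mul_pos htpos htpos) htn
  have ht3 : 2 ≤ t := by
    have : (2 : ℝ) ≤ t := by linarith [Real.add_one_le_exp (1000 : ℝ)]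
    exact_mod_cast this
  obtain ⟨b, hb1, hb2, hb3, hb4⟩ := exists_base hA
  obtain ⟨yl, hbal⟩ := exists_balanced htpos hb1
  obtain ⟨n', rfl⟩ : ∃ n', n = n' + 1 := ⟨n - 1, by omega⟩
  set k := Nat.count (fun s => yl s = true) (n' + 1) with hk
  set m := Nat.count (fun s => yl s = false) (n' + 1) with hm
  have hkm : k + m = n' + 1 := by
    have : ∀ d, Nat.count (fun s => yl s = true) d + Nat.count (fun s => yl s = false) d = d := by
      intro d
      induction d with
      | zero => simp
      | succ d ih =>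
        rw [Nat.count_succ, Nat.count_succ]
        cases yl d <;> simp <;> omega
    exact this _
  set l := Fintype.card (Io n') with hl
  have hN : ∀ a : ℕ, 2 ≤ a →
      Fintype.card (Io n' ⊕ Fin ((a - 2) * l + 1)) = (a - 1) * l + 1 ∧
        (a - 1) * l + l = a * l := by
    intro a ha
    obtain ⟨c, rfl⟩ := Nat.exists_eq_add_of_le ha
    rw [Fintype.card_sum, Fintype.card_fin, ← hl]
    have e1 : 2 + c - 2 = c := by omega
    have e2 : 2 + c - 1 = c + 1 := by omega
    rw [e1, e2]
    constructor <;> ring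
  obtain ⟨hN₁, ha⟩ := hN t ht3
  obtain ⟨hN₂, hb⟩ := hN b (by omega)
  have hb0 : 1 ≤ b := by omega
  have hb0' : (0 : ℝ) < b := by exact_mod_cast hb0
  set A := Real.log t with hAdef
  set ρ := 8 * Real.exp (-A / 16) with hρ
  have hρ0 : 0 ≤ ρ := by positivity
  have hρ1 : ρ ≤ 1 := by
    calc ρ ≤ Real.exp 3 * Real.exp (-A / 16) := by
          rw [hρ]; gcongr; exact eight_le_exp_three
      _ = Real.exp (3 + -A / 16) := (Real.exp_add _ _).symm
      _ ≤ 1 := Real.exp_le_one_iff.mpr (by linarith)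
  have hδ : 0 ≤ Real.log b - A := by
    have : A ≤ Real.log b := Real.log_le_log ht0 (by exact_mod_cast hb1)
    linarith
  have eB : Real.log b = A + (Real.log b - A) := by ring
  set D : ℝ := Dm ((t - 1) * l) l * Dm ((b - 1) * l) l with hD
  have hD0 : 0 < D := by
    have := Dm_pos ((t - 1) * l) l
    have := Dm_pos ((b - 1) * l) l
    positivity
  set E := Real.exp ((k * A + m * Real.log b) / 2) with hE
  have hE0 : 0 < E := Real.exp_pos _
  -- upper bound
  have up := (toepMeas K (yv yl) _ _ (k := k) (m := m) hN₁ hN₂ ha hb htpos hb0).output_le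
    (by positivity) hC htpos hρ0 hρ1
    (fun D h1 h2 => by
      rw [eB]
      refine phi_mid (by linarith) hδ hb3 hb4 ?_ h1 h2
      rw [Real.exp_log ht0]
      have : (1 : ℝ) ≤ t := by exact_mod_cast htpos
      linarith)
    (by rw [eB]; exact phi_one (by linarith) hδ)
  rw [hout] at up
  change ((toep (yv yl) _ _ K (l + k) l l (l + m) (ArithCircuit.imm K (n' + 1))).rank : ℝ) ≤ _
    at up
  rw [toep_imm, rank_Fmat, hkm, ← hAdef, ← hD, ← hE] at up
  -- lower bound
  have lo := rank_lower yl _ _ l k m hN₁ hN₂ ha hb htpos hb0 hk hm hbal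
  set rk : ℝ := ((Fmat yl (Fin ((t - 2) * l + 1)) (Fin ((b - 2) * l + 1)) l k m ℝ n').rank : ℝ)
  have hrk : 0 ≤ rk := Nat.cast_nonneg _
  set s : ℝ := (C.size : ℝ) with hs
  have hs1 : (1 : ℝ) ≤ s := by
    have : 1 ≤ C.size := by unfold ArithCircuit.SPSPS.size; omega
    rw [hs]; exact_mod_cast this
  have hsR : (Fintype.card R : ℝ) ≤ s := by
    have : Fintype.card R ≤ C.size := by unfold ArithCircuit.SPSPS.size; omega
    rw [hs]; exact_mod_cast this
  have hsP : (Fintype.card P : ℝ) ≤ s := by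
    have : Fintype.card P ≤ C.size := by unfold ArithCircuit.SPSPS.size; omega
    rw [hs]; exact_mod_cast this
  set N : ℝ := ((n' + 1 : ℕ) : ℝ) with hNdef
  have hN0 : 0 < N := by positivity
  have p1 : ρ ^ ((n' + 1) / (2 * t)) ≤ ρ ^ (t / 2) := by
    apply pow_le_pow_of_le_one hρ0 hρ1
    calc t / 2 = (t * t) / (2 * t) := (Nat.mul_div_mul_right _ _ htpos).symm
      _ ≤ _ := Nat.div_le_div_right htn
  have p2 : ρ ^ t ≤ ρ ^ (t / 2) := pow_le_pow_of_le_one hρ0 hρ1 (by omega)
  have p3 : (t : ℝ) ≤ s * (N + 1) := by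
    have : t ≤ n' + 1 := Nat.sqrt_le_self _
    have : (t : ℝ) ≤ N := by rw [hNdef]; exact_mod_cast this
    nlinarith
  have up2 : rk ≤ s ^ 2 * (2 * (N + 1) * ρ ^ (t / 2)) * (D * E) := by
    refine up.trans ?_
    calc _ ≤ s * (D * E * (s * (N + 1) * ρ ^ (t / 2) + s * (ρ ^ (t / 2) * (N + 1)))) := by gcongr
      _ = _ := by ring
  have q1 : (1 + (b : ℝ) / N) ^ n' ≤ Real.exp b := by
    calc (1 + (b : ℝ) / N) ^ n' ≤ Real.exp (b / N) ^ n' := by
          gcongr
          linarith [Real.add_one_le_exp ((b : ℝ) / N)]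
      _ = Real.exp (n' * (b / N)) := (Real.exp_nat_mul _ _).symm
      _ ≤ _ := by
          apply Real.exp_le_exp.mpr
          rw [← mul_div_assoc, div_le_iff₀ hN0, hNdef]
          push_cast
          nlinarith
  have hB0 : 0 ≤ Real.log b := by linarith
  have bal1 : k * A ≤ Real.log b + m * Real.log b := by
    have h1 : ((t : ℝ)) ^ k ≤ b * (b : ℝ) ^ m := by exact_mod_cast (hbal (n' + 1)).1
    have := Real.log_le_log (by positivity) h1
    rwa [Real.log_mul hb0'.ne' (by positivity), Real.log_pow, Real.log_pow] at this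
  have bal2 : m * Real.log b ≤ Real.log b + k * A := by
    have h1 : ((b : ℝ)) ^ m ≤ b * (t : ℝ) ^ k := by exact_mod_cast (hbal (n' + 1)).2
    have := Real.log_le_log (by positivity) h1
    rwa [Real.log_mul hb0'.ne' (by positivity), Real.log_pow, Real.log_pow] at this
  have q2 : E * (((t : ℝ)⁻¹) ^ k + ((b : ℝ)⁻¹) ^ m) ≤ 2 * b := by
    have e1 : ((t : ℝ)⁻¹) ^ k = Real.exp (-(k * A)) := by
      rw [Real.exp_neg, Real.exp_nat_mul, hAdef, Real.exp_log ht0, inv_pow]
    have e2 : ((b : ℝ)⁻¹) ^ m = Real.exp (-(m * Real.log b)) := by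
      rw [Real.exp_neg, Real.exp_nat_mul, Real.exp_log hb0', inv_pow]
    rw [e1, e2, hE, mul_add, ← Real.exp_add, ← Real.exp_add]
    have f1 : Real.exp ((k * A + m * Real.log b) / 2 + -(k * A)) ≤ b := by
      rw [← Real.le_log_iff_exp_le hb0']
      linarith
    have f2 : Real.exp ((k * A + m * Real.log b) / 2 + -(m * Real.log b)) ≤ b := by
      rw [← Real.le_log_iff_exp_le hb0']
      linarith
    linarith
  apply final_ineq (t := t) (b := b) (by linarith) hA hn1 hnt hb2
  have fin : D * 1 ≤ D * (s ^ 2 * (2 * (N + 1) * ρ ^ (t / 2)) * (Real.exp b * (2 * b))) := by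
    calc D * 1 = D := mul_one _
      _ ≤ _ := lo
      _ ≤ (s ^ 2 * (2 * (N + 1) * ρ ^ (t / 2)) * (D * E)) *
          (Real.exp b * (((t : ℝ)⁻¹) ^ k + ((b : ℝ)⁻¹) ^ m)) := by gcongr
      _ = D * (s ^ 2 * (2 * (N + 1) * ρ ^ (t / 2)) *
          (Real.exp b * (E * (((t : ℝ)⁻¹) ^ k + ((b : ℝ)⁻¹) ^ m)))) := by ring
      _ ≤ _ := by gcongr
  exact le_of_mul_le_mul_left fin hD0

end Crest.Agent.S0504
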