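import Crest.Statements.S0505
import Crest.Agent.R327.Build

set_option autoImplicit false
universe u
open Crest Crest.LogicCS

namespace Crest.Agent.S0505

open Crest.Agent.R327

/-- For every field K and every n ≥ 2 there is a syntactically homogeneous depth-five sum-product circuit over K in the n³ matrix-entry variables (shared gates, unrestricted fan-in and bottom support) whose output is the top-left entry of the ordered product of the n variable matrices of order n and whose number of vertices, leaves included, is at most 2n³ + r·n² + r·n^(t+1) + n^(r−1) + 1 with t = ⌈√n⌉, r = ⌈n/t⌉, and also at most n^(√n + 4). Layers are indexed by initial segments of ℕ. -/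
theorem result (K : Type u) [Field K] (n : ℕ)
    (hn : 2 ≤ n) :
    ∃ (l b p s r : ℕ)
      (C : Crest.ArithCircuit.SPSPS K (Fin n × Fin n × Fin n) (Fin l) (Fin b) (Fin p) (Fin s) (Fin r)),
      C.IsHomogeneous ∧ C.output = Crest.ArithCircuit.imm K n ∧
        C.size ≤ 2 * n ^ 3 + ⌈(n : ℝ) / ⌈Real.sqrt n⌉₊⌉₊ * n ^ 2 +
          ⌈(n : ℝ) / ⌈Real.sqrt n⌉₊⌉₊ * n ^ (⌈Real.sqrt n⌉₊ + 1) +
          n ^ (⌈(n : ℝ) / ⌈Real.sqrt n⌉₊⌉₊ - 1) + 1 ∧
        (C.size : ℝ) ≤ (n : ℝ) ^ (Real.sqrt n + 4) := by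
  obtain ⟨n', rfl⟩ : ∃ n', n = n' + 1 := ⟨n - 1, by omega⟩
  set N : ℝ := ((n' + 1 : ℕ) : ℝ) with hN
  have hN2 : (2 : ℝ) ≤ N := by rw [hN]; exact_mod_cast hn
  set t := ⌈Real.sqrt N⌉₊ with ht
  have ht1 : Real.sqrt N ≤ t := Nat.le_ceil _
  have ht2 : (t : ℝ) < Real.sqrt N + 1 := Nat.ceil_lt_add_one (Real.sqrt_nonneg _)
  have hs1 : 1 < Real.sqrt N := by
    rw [Real.lt_sqrt (by norm_num)]; linarith
  have ht3 : 2 ≤ t := by
    have : (1 : ℝ) < t := hs1.trans_le ht1
    have : 1 < t := by exact_mod_cast this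
    omega
  have ht0 : (0 : ℝ) < t := by positivity
  have ht4 : t ≤ n' + 1 := by
    apply Nat.ceil_le.mpr
    rw [Real.sqrt_le_iff]
    exact ⟨by positivity, by nlinarith⟩
  have ht5 : N ≤ t * t := by
    have := Real.sq_sqrt (by linarith : 0 ≤ N)
    nlinarith
  set r := ⌈N / t⌉₊ with hr
  have hr1 : N / t ≤ r := Nat.le_ceil _
  have hr2 : (r : ℝ) < N / t + 1 := Nat.ceil_lt_add_one (by positivity)
  have hr3 : r ≤ t := Nat.ceil_le.mpr (by rw [div_le_iff₀ ht0]; exact ht5)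
  have hr4 : n' + 1 ≤ r * t := by
    rw [div_le_iff₀ ht0, hN] at hr1
    exact_mod_cast hr1
  have hr0 : 1 ≤ r := by
    rcases Nat.eq_zero_or_pos r with h | h
    · rw [h] at hr4; omega
    · exact h
  obtain ⟨r', hr'⟩ : ∃ r', r = r' + 1 := ⟨r - 1, by omega⟩
  have hr5 : r' * t < n' + 1 := by
    rw [hr'] at hr2
    push_cast at hr2
    have : (r' : ℝ) < N / t := by linarith
    rw [lt_div_iff₀ ht0, hN] at this
    exact_mod_cast this
  rw [hr'] at hr3 hr4 ⊢
  obtain ⟨l, b, p, s, q, C, h1, h2, h3⟩ := exists_circuit K n' t r' (by omega) hr5 hr4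
  refine ⟨l, b, p, s, q, C, h1, h2, h3, ?_⟩
  have h4 : C.size ≤ (n' + 1) ^ (t + 3) := by
    refine h3.trans ?_
    rcases Nat.lt_or_ge n' 2 with h | h
    · have e1 : n' = 1 := by omega
      have e2 : t = 2 := by omega
      have e3 : r' = 0 := by rw [e1, e2] at hr5; omega
      rw [e1, e2, e3]
      norm_num
    · set m := n' + 1 with hm
      have hm1 : 1 ≤ m := by omega
      have a1 : m ^ 3 ≤ m ^ (t + 1) := Nat.pow_le_pow_right hm1 (by omega)
      have a2 : (r' + 1) * m ^ 2 ≤ m ^ (t + 1) :=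
        calc (r' + 1) * m ^ 2 ≤ m * m ^ 2 := Nat.mul_le_mul_right _ (by omega)
          _ = m ^ 3 := by ring
          _ ≤ _ := a1
      have a3 : (r' + 1) * m ^ (t + 1) ≤ m * m ^ (t + 1) := Nat.mul_le_mul_right _ (by omega)
      have a4 : m ^ r' ≤ m ^ (t + 1) := Nat.pow_le_pow_right hm1 (by omega)
      have a5 : 1 ≤ m ^ (t + 1) := Nat.one_le_pow _ _ hm1
      have a6 : m + 5 ≤ m ^ 2 := by nlinarith
      calc _ ≤ (m + 5) * m ^ (t + 1) := by nlinarith
        _ ≤ m ^ 2 * m ^ (t + 1) := Nat.mul_le_mul_right _ a6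
        _ = _ := by ring
  calc (C.size : ℝ) ≤ N ^ (t + 3) := by rw [hN]; exact_mod_cast h4
    _ = N ^ ((t + 3 : ℕ) : ℝ) := (Real.rpow_natCast _ _).symm
    _ ≤ _ := by
      apply Real.rpow_le_rpow_of_exponent_le (by linarith)
      push_cast
      linarith

end Crest.Agent.S0505
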