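import Crest.Statements.S0529
import Crest.Agent.R338.PTof
import Crest.Agent.R338.Q1
import Crest.Agent.R338.Q2
import Crest.Agent.R338.Peel
import Crest.Agent.R338.K4
import Crest.Agent.R338.Ring
import Crest.Agent.R338.Bar
import Crest.Agent.R338.Cont

set_option autoImplicit false
open Crest.Quantum.QMA Crest.MathPhysics.CoulombProblem
open Crest Crest.MathPhysics

namespace Crest.Agent.S0529

/-- The electronic ground-energy promise problem for clamped unit nuclei (instances: pairwise distinct rational nuclear positions, all charges one; `N ≥ 1` electrons, in unary; rational thresholds `a`, `b` with `b - a ≥ 1`; YES when the infimum `E₀` of the Coulomb energy over antisymmetric spinful `N`-electron unit states is `≤ a`, NO when it is `≥ b`) is QMA-hard: every promise problem with a polynomial-time uniform quantum verifier reduces to it by a polynomial-time many-one reduction. -/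
theorem result :
    QMAHard groundEnergyProblem := by
  rintro P ⟨V, hV, ⟨gen, hgen, hcode⟩, ⟨p, hp⟩, hyes, hno⟩
  obtain ⟨f, hf, h1, h2⟩ :=
    (((((((R338.red_V_RC.trans R338.red_RC_PH).trans (R338.red_peel 5 (by norm_num))).trans
      (R338.red_peel 4 (by norm_num))).trans (R338.red_peel 3 (by norm_num))).trans
      (R338.red_peel 2 (by norm_num))).trans R338.red_PH_SW).trans R338.red_SW_HC).trans
      (R338.red_HC_GR.trans R338.red_GR_C)
  refine ⟨fun x => f (⟨p.eval x.length⟩, gen x), Agent.Lib.PT.PT.polyTime (hf.comp
    ((R338.pt_un_eval p).pair (R338.pt_of_polyTime hgen))), fun x hx => h1 _ ?_,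
    fun x hx => h2 _ ?_⟩
  · exact ⟨V x, hV x, hcode x, hp x, hyes x hx⟩
  · exact ⟨V x, hV x, hcode x, hp x, hno x hx⟩

end Crest.Agent.S0529
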