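import Crest.Statements.S0554
import Crest.Agent.R350.Hard
import Crest.Agent.R350.Lower

set_option autoImplicit false
open Crest.MathPhysics.Query
open Crest Crest.MathPhysics

namespace Crest.Agent.S0554

open Crest.Agent.R350 Filter

lemma exists_dec (M B : ℕ) (h : 2 * M + 1 ≤ 2 ^ B) :
    ∃ dec : (Fin B → Bool) → ℤ, ∀ z : ℤ, |z| ≤ M → ∃ v, dec v = z := by
  classical
  have hc : Fintype.card (Finset.Icc (-(M : ℤ)) M) ≤ Fintype.card (Fin B → Bool) := by
    simp only [Fintype.card_coe, Int.card_Icc, Fintype.card_pi, Fintype.card_bool,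
      Finset.prod_const, Finset.card_univ, Fintype.card_fin]
    omega
  obtain ⟨f⟩ := Function.Embedding.nonempty_of_card_le hc
  refine ⟨Function.extend f (fun z => (z : ℤ)) 0, fun z hz => ?_⟩
  refine ⟨f ⟨z, by simpa [abs_le] using hz⟩, ?_⟩
  rw [f.injective.extend_apply]

/-- For every `k ≥ 2` there are constants `c, C, b > 0` such that for every large enough power of four `m` some total Boolean function on finitely many bits has a quantum query algorithm with at most `C √m (log m)^b` queries and error at most `1/3` on every input, while every randomized algorithm with error at most `1/3` on every input reads at least `c m^{2 - 1/k} / (log m)^2` bits on some input. So no power below four bounds randomized by quantum query complexity. -/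
theorem result (k : ℕ) (hk : 2 ≤ k) :
    ∃ (c C b : ℝ), 0 < c ∧ 0 < C ∧ 0 < b ∧ ∃ m₀ : ℕ, ∀ m : ℕ, m₀ ≤ m → (∃ j : ℕ, m = 4 ^ j) →
      ∃ (n : ℕ) (F : (Fin n → Bool) → Bool),
        (∃ q : ℕ, (q : ℝ) ≤ C * Real.sqrt m * Real.log m ^ b ∧ QuantumComputes F q) ∧
        (∀ r : ℕ, RandomizedComputes F r →
          c * (m : ℝ) ^ (2 - 1 / (k : ℝ)) / Real.log m ^ 2 ≤ r) := by
  obtain ⟨K, C, hC1, hard⟩ := forr_hard k (by omega)
  set Cn : ℕ := ⌈C⌉₊ with hCn
  have hCCn : C ≤ Cn := Nat.le_ceil C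
  have hCn1 : 1 ≤ Cn := by
    have : (1 : ℝ) ≤ Cn := hC1.trans hCCn
    exact_mod_cast this
  set D : ℕ := 120 * Cn ^ (2 * K) + (K + 3) with hD
  have hkr : (2 : ℝ) ≤ k := by exact_mod_cast hk
  have hev : ∀ᶠ n : ℕ in atTop, 1 ≤ n ∧ C ≤ 2 ^ n ∧ (10 : ℝ) ^ k ≤ 2 ^ n ∧
      (n : ℝ) ^ (2 * K + 2) / 2 ^ n ≤ 1 / (10 * (120 * Cn ^ (2 * K) * C)) := by
    have h2 : Tendsto (fun n : ℕ => (2 : ℝ) ^ n) atTop atTop :=
      tendsto_pow_atTop_atTop_of_one_lt (by norm_num)
    refine (eventually_ge_atTop 1).and ((h2.eventually_ge_atTop C).and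
      ((h2.eventually_ge_atTop _).and ?_))
    exact (tendsto_pow_const_div_const_pow_of_one_lt (2 * K + 2) (r := 2)
      (by norm_num)).eventually_le_const (by positivity)
  obtain ⟨n₀, hn₀⟩ := eventually_atTop.1 hev
  refine ⟨1 / 10, 50000000 * D ^ 5 * 2 ^ (5 * (2 * K + 1)), (5 * (2 * K + 1) : ℕ), by norm_num,
    by positivity, by positivity, 2 ^ n₀, ?_⟩
  rintro m hm ⟨j, rfl⟩
  set n := 2 * j with hn
  have h4 : 4 ^ j = 2 ^ n := by rw [hn, pow_mul]; norm_num
  rw [h4] at hm ⊢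
  obtain ⟨hn1, hC, h10, hsm⟩ := hn₀ n ((Nat.pow_le_pow_iff_right (by norm_num)).1 hm)
  obtain ⟨μ, hμ0, hμ1, hgap, hη⟩ := hard n hn1 hC
  have hn2 : 2 ≤ n := by omega
  have hnr : (2 : ℝ) ≤ n := by exact_mod_cast hn2
  set s : ℕ := 120 * Cn ^ (2 * K) * n ^ (2 * K + 1) with hs
  set B : ℕ := n * (K + 1) + 2 with hB
  obtain ⟨dec, hdec⟩ := exists_dec (2 ^ (n * (K + 1))) B (by
    rw [hB, pow_add]
    have : 0 < 2 ^ (n * (K + 1)) := by positivity
    omega)
  set θ : ℝ := (∑ x, μ true x * Phi x + ∑ x, μ false x * Phi x) / 2 with hθ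
  let e := Fintype.equivFin (Idx n K s B)
  have hlog : (n : ℝ) ≤ 2 * Real.log ((2 ^ n : ℕ) : ℝ) := by
    push_cast
    rw [Real.log_pow]
    nlinarith [Real.log_two_gt_d9]
  refine ⟨_, fun x => FF θ dec fun i => x (e i), ⟨50000000 * 2 ^ j * (D * n ^ (2 * K + 1)) ^ 5, ?_,
    ?_⟩, fun r hr => ?_⟩
  · have h1 : Real.sqrt ((2 ^ n : ℕ) : ℝ) = 2 ^ j := by
      rw [Real.sqrt_eq_iff_mul_self_eq (by positivity) (by positivity), hn, ← pow_add]
      push_cast
      congr 1; ring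
    rw [h1, Real.rpow_natCast]
    have h2 : (n : ℝ) ^ (5 * (2 * K + 1)) ≤ (2 * Real.log ((2 ^ n : ℕ) : ℝ)) ^ (5 * (2 * K + 1)) :=
      pow_le_pow_left₀ (by positivity) hlog _
    rw [mul_pow] at h2
    calc ((50000000 * 2 ^ j * (D * n ^ (2 * K + 1)) ^ 5 : ℕ) : ℝ)
        = 50000000 * D ^ 5 * 2 ^ j * (n : ℝ) ^ (5 * (2 * K + 1)) := by push_cast; ring
      _ ≤ 50000000 * D ^ 5 * 2 ^ j * (2 ^ (5 * (2 * K + 1)) *
          Real.log ((2 ^ n : ℕ) : ℝ) ^ (5 * (2 * K + 1))) := by gcongr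
      _ = _ := by ring
  · have h1 : n ≤ n ^ (2 * K + 1) := Nat.le_self_pow (by omega) n
    have h2 : (K + 3) * n ≤ D * n ^ (2 * K + 1) := Nat.mul_le_mul (by omega) h1
    refine quantum_upper j hn θ dec _ (by nlinarith) ?_ (by nlinarith) (by rw [hB]; nlinarith) e
    rw [hs]
    exact Nat.mul_le_mul_right _ (by omega)
  · set N : ℝ := 2 ^ n with hN
    have hN1 : 1 ≤ N := one_le_pow₀ (by norm_num)
    have hα : 0 ≤ 1 - 1 / (k : ℝ) := by
      rw [sub_nonneg, div_le_one (by linarith)]; linarith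
    set L : ℕ := ⌊N ^ (1 - 1 / (k : ℝ))⌋₊ with hL
    have hL0 : 1 ≤ N ^ (1 - 1 / (k : ℝ)) := Real.one_le_rpow hN1 hα
    have hL1 : 1 ≤ L := Nat.le_floor (by simpa using hL0)
    have hL2 : (L : ℝ) ≤ N ^ (1 - 1 / (k : ℝ)) := Nat.floor_le (by linarith)
    have hL3 : N ^ (1 - 1 / (k : ℝ)) ≤ L + 1 := (Nat.lt_floor_add_one _).le
    have hL4 : L ^ k ≤ (2 ^ n) ^ (k - 1) := by
      have h1 : (L : ℝ) ^ k ≤ (N ^ (1 - 1 / (k : ℝ))) ^ k := pow_le_pow_left₀ (by positivity) hL2 _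
      rw [← Real.rpow_natCast (N ^ _), ← Real.rpow_mul (by positivity),
        show (1 - 1 / (k : ℝ)) * k = ((k - 1 : ℕ) : ℝ) by
          rw [Nat.cast_sub (by omega)]; field_simp; simp, Real.rpow_natCast, hN] at h1
      exact_mod_cast h1
    have hL5 : (L : ℝ) / N ≤ 1 / 10 := by
      have h1 : (10 : ℝ) ≤ N ^ (1 / (k : ℝ)) := by
        have h2 := Real.rpow_le_rpow (by positivity) h10 (show 0 ≤ 1 / (k : ℝ) by positivity)
        rwa [← Real.rpow_natCast, ← Real.rpow_mul (by norm_num),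
          mul_one_div_cancel (by positivity), Real.rpow_one] at h2
      have h2 : N ^ (1 - 1 / (k : ℝ)) * N ^ (1 / (k : ℝ)) = N := by
        rw [← Real.rpow_add (by positivity)]; simp
      rw [div_le_div_iff₀ (by positivity) (by norm_num)]
      nlinarith
    have hg : (0 : ℝ) < 1 / (C * n) ^ K / 2 := by positivity
    have h1 := rand_lower (s := s) (B := B) μ hμ0 hμ1 θ (1 / (C * n) ^ K / 2) hg ?_
      (by positivity) (by rw [hθ]; linarith) (by rw [hθ]; linarith) dec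
      (fun z hz => hdec z (by simpa using hz)) L (C / 2 ^ n) (by positivity) (hη L hL1 hL4) ?_ e r hr
    · refine le_trans ?_ h1
      have h2 : 1 ≤ Real.log ((2 ^ n : ℕ) : ℝ) ^ 2 := one_le_pow₀ (by linarith)
      refine (div_le_self (by positivity) h2).trans ?_
      push_cast
      rw [← hN, show 2 - 1 / (k : ℝ) = 1 + (1 - 1 / (k : ℝ)) by ring, Real.rpow_add (by positivity),
        Real.rpow_one]
      nlinarith
    · rw [hs]
      push_cast
      rw [div_pow, div_pow, one_pow, ← pow_mul, mul_pow, mul_comm K 2, pow_succ (n : ℝ)]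
      have h2 : C ^ (2 * K) ≤ (Cn : ℝ) ^ (2 * K) := pow_le_pow_left₀ (by positivity) hCCn _
      calc 30 * (n : ℝ) = 120 * C ^ (2 * K) * (n ^ (2 * K) * n) *
            (1 / (C ^ (2 * K) * n ^ (2 * K)) / 2 ^ 2) := by field_simp; norm_num
        _ ≤ _ := by gcongr
    · have h2 : n * (s : ℝ) * (C / 2 ^ n) ≤ 1 / 10 := by
        rw [hs]
        push_cast
        rw [le_div_iff₀ (by positivity)] at hsm
        calc (n : ℝ) * (120 * Cn ^ (2 * K) * n ^ (2 * K + 1)) * (C / 2 ^ n)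
            = n ^ (2 * K + 2) / 2 ^ n * (10 * (120 * Cn ^ (2 * K) * C)) / 10 := by ring
          _ ≤ 1 / 10 := by gcongr
      linarith

end Crest.Agent.S0554
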